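import Vale.Agent.P196.Full.Tiles.Equations.Scans
import Vale.Agent.P196.Full.Tiles.Equations.Defs

/-!
# P196: scans decode the markers: one for each side at most, and all within distance one
-/

namespace Vale.Agent.P196.Full.Tiles.Parse

/-- Two values, if present, differ by at most one. -/
def Near (v : Fin 4 → Option ℕ) : Prop :=
  ∀ k k' w w', v k = some w → v k' = some w' → w ≤ w' + 1

/-- The markers of one scan: each side has at most one, they are in range and near each other. -/
structure Decoded (mk : Fin 4 → ℕ → Bool) (m : ℕ) (v : Fin 4 → Option ℕ) : Prop where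
  le : ∀ s w, v s = some w → w ≤ m
  mark : ∀ s x, x ≤ m → mk s x = decide (v s = some x)
  near : Near v

/-- At most one marker for each side, none above another one by more than one. -/
theorem exists_decoded {mk : Fin 4 → ℕ → Bool} {m : ℕ} (seen late : ℕ → Fin 4 → Bool)
    (here : ℕ → Bool) (h_top : ∀ s, seen (m + 1) s = false)
    (h_seen : ∀ x ≤ m, ∀ s, seen x s = (seen (x + 1) s || mk s x))
    (h_late : ∀ x ≤ m, ∀ s,
      late x s = (late (x + 1) s || (mk s x && decide (∃ t, seen (x + 1) t = true))))
    (h_here : ∀ x ≤ m, here x = decide (∃ s, mk s x = true))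
    (once : ∀ x ≤ m, ∀ k s, mk k x = true → seen (x + 1) s = true →
      here (x + 1) = true ∧ seen (x + 1) k = false ∧ ∀ t, late (x + 1) t = false) :
    ∃ v, Decoded mk m v := by
  have seenOf : ∀ n x, m + 1 = x + n → ∀ s, seen x s = true ↔ ∃ y, x ≤ y ∧ y ≤ m ∧ mk s y = true := by
    intro n
    induction n with
    | zero =>
      intro x hx s
      rw [show x = m + 1 by omega, h_top]
      simp only [Bool.false_eq_true, false_iff]
      rintro ⟨y, h1, h2, -⟩
      omega
    | succ n ih =>
      intro x hx s
      rw [h_seen x (by omega), Bool.or_eq_true, ih (x + 1) (by omega) s]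
      constructor
      · rintro (⟨y, h1, h2, h3⟩ | h)
        · exact ⟨y, by omega, h2, h3⟩
        · exact ⟨x, le_rfl, by omega, h⟩
      · rintro ⟨y, h1, h2, h3⟩
        rcases Nat.eq_or_lt_of_le h1 with rfl | h1
        · exact Or.inr h3
        · exact Or.inl ⟨y, h1, h2, h3⟩
  have sn : ∀ x ≤ m + 1, ∀ s, seen x s = true ↔ ∃ y, x ≤ y ∧ y ≤ m ∧ mk s y = true :=
    fun x hx => seenOf (m + 1 - x) x (by omega)
  have uniq : ∀ s x y, x < y → y ≤ m → mk s x = true → mk s y = true → False := by
    intro s x y h1 h2 hx hy
    have e := (sn (x + 1) (by omega) s).2 ⟨y, h1, h2, hy⟩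
    have := (once x (by omega) s s hx e).2.1
    simp [e] at this
  have hv : ∀ s, ∃ o : Option ℕ, (∀ w, o = some w → w ≤ m) ∧
      ∀ x ≤ m, mk s x = decide (o = some x) := by
    intro s
    by_cases h : ∃ x ≤ m, mk s x = true
    · obtain ⟨x₀, h0, h0'⟩ := h
      refine ⟨some x₀, fun w hw => (Option.some.inj hw) ▸ h0, fun x hx => ?_⟩
      rcases Nat.lt_trichotomy x x₀ with hlt | rfl | hgt
      · rw [decide_eq_false (by simp; omega), Bool.eq_false_iff]
        exact fun hh => uniq s x x₀ hlt h0 hh h0'
      · simpa using h0'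
      · rw [decide_eq_false (by simp; omega), Bool.eq_false_iff]
        exact fun hh => uniq s x₀ x hgt hx h0' hh
    · push Not at h
      exact ⟨none, by simp, fun x hx => by simpa using h x hx⟩
  choose v hle hmark using hv
  refine ⟨v, fun s w => hle s w, fun s x => hmark s x, ?_⟩
  intro k k' w w' hk hk'
  by_contra hlt
  have hwm := hle k w hk
  have mw : mk k w = true := by rw [hmark k w hwm]; simp [hk]
  have mw' : mk k' w' = true := by rw [hmark k' w' (by omega)]; simp [hk']
  have e := (sn (w' + 1) (by omega) k).2 ⟨w, by omega, hwm, mw⟩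
  obtain ⟨h16, -, hl⟩ := once w' (by omega) k' k mw' e
  rw [h_here (w' + 1) (by omega), decide_eq_true_eq] at h16
  obtain ⟨u, hu⟩ := h16
  have e2 : seen (w' + 1 + 1) k = true := (sn _ (by omega) k).2 ⟨w, by omega, hwm, mw⟩
  have := hl u
  rw [h_late (w' + 1) (by omega), hu, decide_eq_true ⟨k, e2⟩] at this
  simp at this

variable {mk : Fin 4 → ℕ → Bool} {m : ℕ} {v : Fin 4 → Option ℕ}

/-- The scan of the values shows the decoded values. -/
theorem Decoded.scan (d : Decoded mk m v) (E : ℕ → Fin 17 → Bool)
    (h_top : ∀ k, E (m + 1) k = false)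
    (h_step : ∀ x ≤ m, ∀ k, E x k =
      scanStep (decide (x = 0)) (decide (x = m)) (fun s => mk s x) (E (x + 1)) k) :
    ∀ x ≤ m + 1, ∀ k, E x k = scanBit v m x k := by
  suffices ∀ n x, m + 1 = x + n → E x = scanBit v m x from
    fun x hx k => congrFun (this (m + 1 - x) x (by omega)) k
  intro n
  induction n with
  | zero =>
    intro x hx
    funext k
    rw [show x = m + 1 by omega, h_top,
      scanBit_eq_false (fun s w hw => Nat.lt_succ_of_le (d.le s w hw)) (Nat.succ_ne_zero m)]
  | succ n ih =>
    intro x hx
    funext k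
    rw [h_step x (by omega), ih (x + 1) (by omega), scanBit_step]
    exact congrArg (fun f => scanStep _ _ f _ k) (funext fun s => d.mark s x (by omega))

/-- The scan of a tag coordinate shows the decoded coordinates. -/
theorem Decoded.coord (d : Decoded mk m v) (E : ℕ → Fin 9 → Bool)
    (h_top : ∀ k, E (m + 1) k = false)
    (h_step : ∀ x ≤ m, ∀ k, E x k = coordStep (fun s => mk s x) (E (x + 1)) k) :
    ∀ x ≤ m + 1, ∀ k, E x k = coordBit v x k := by
  suffices ∀ n x, m + 1 = x + n → E x = coordBit v x from
    fun x hx k => congrFun (this (m + 1 - x) x (by omega)) k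
  intro n
  induction n with
  | zero =>
    intro x hx
    funext k
    rw [show x = m + 1 by omega, h_top,
      coordBit_eq_false fun s w hw => Nat.lt_succ_of_le (d.le s w hw)]
  | succ n ih =>
    intro x hx
    funext k
    rw [h_step x (by omega), ih (x + 1) (by omega), coordBit_step]
    exact congrArg (fun f => coordStep f _ k) (funext fun s => d.mark s x (by omega))

end Vale.Agent.P196.Full.Tiles.Parse
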