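import Vale.Agent.P196.Full.Tiles.Parse.Range
import Vale.Agent.P196.Full.Tiles.Equations.Basics

/-!
# P196: the outer sides of a block determine the sides of its parent
-/

namespace Vale.Agent.P196.Full.Tiles

attribute [local irreducible] K M0 lvl

/-- A colour in range is determined by its kind and by the numbers shown on the side. -/
theorem GCol.eq_of_shown {s : ℕ} {g g' : GCol} (hr : g.InRange s) (hr' : g'.InRange s)
    (hc : g.code = g'.code) (hv : ∀ w, w ≤ lvl s - K → (g.val = some w ↔ g'.val = some w))
    (hA : ∀ x, x < 2 * K → (g.tagA = some x ↔ g'.tagA = some x))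
    (hB : ∀ x, x < 2 * K → (g.tagB = some x ↔ g'.tagB = some x)) : g = g' := by
  cases g' with
  | outer k => exact code_outer hc
  | side z hi v =>
    obtain ⟨v', rfl⟩ := code_side hc
    have := (hv v hr').2 rfl
    simp only [GCol.val, Option.some.injEq] at this
    rw [this]
  | tag a b =>
    obtain ⟨a', b', rfl, -⟩ := code_tag hc
    simp only [GCol.InRange] at hr hr'
    simp only [GCol.tagA, GCol.tagB, Option.some.injEq] at hA hB
    have ea : a' = a := by
      by_cases h : a' < 2 * K
      · exact ((hA a' h).1 rfl).symm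
      · by_cases h' : a < 2 * K
        · exact (hA a h').2 rfl
        · omega
    have eb : b' = b := by
      by_cases h : b' < 2 * K
      · exact ((hB b' h).1 rfl).symm
      · by_cases h' : b < 2 * K
        · exact (hB b h').2 rfl
        · omega
    rw [ea, eb]

variable {F : (Sg → Bool) → Bool} {M : ℕ} {T T' : Tile}

theorem side_h {s : ℕ} (hr : T.r.g.InRange s) (hr' : T'.l.g.InRange s)
    (e : ∀ j < 2 * lvl s, (child F (lvl s) T (2 * lvl s - 1) j).r = (child F (lvl s) T' 0 j).l) :
    T.r = T'.l := by
  have hK := K_large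
  obtain ⟨M, hM, hM4⟩ : ∃ M, lvl s = M ∧ 4 * K ≤ M := ⟨_, rfl, lvl_ge s⟩
  rw [hM] at e
  have f : ∀ j < 2 * M, ∀ h, fillH F M T (2 * M) j h = fillH F M T' 0 j h := by
    intro j hj h
    have := congrFun (congrArg Col.bit (e j hj)) h
    simpa [child, show 2 * M - 1 + 1 = 2 * M by omega] using this
  have hs : ∀ t, T.sideBit 1 t = T'.sideBit 0 t := by
    intro t
    have hb := cPos_bounds t 0
    obtain ⟨p, hp⟩ : ∃ p, cPos t 0 = p := ⟨_, rfl⟩
    rw [hp] at hb
    have := f (p + M - K) (by omega) .C
    simp only [fillH, show M ≤ p + M - K + K ∧ p + M - K < M + K by omega,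
      show ¬(2 * M + 1 ≤ M + K) by omega, show 0 + 1 ≤ M + K by omega,
      show p + M - K + K - M = p by omega, and_self, decide_true, decide_false, Bool.true_and,
      Bool.false_eq_true, if_false, if_true] at this
    rwa [← hp, shown_cPos, shown_cPos] at this
  have hg : T.r.g = T'.l.g := by
    refine GCol.eq_of_shown hr hr' (code_eq_of_bits fun k => hs (.inl k)) (fun w hw => ?_)
      (fun x hx => ?_) (fun x hx => ?_)
    · rw [hM] at hw
      have := f (M + K + w - 1) (by omega) .Mk
      simpa [fillH, show M + K ≤ M + K + w - 1 + 1 by omega, show ¬2 * M ≤ M by omega,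
        show M + K + w - 1 + 1 - (M + K) = w by omega] using this
    · have := f (x + M - K) (by omega) .A
      simpa [fillH, show M ≤ x + M - K + K ∧ x + M - K < M + K by omega,
        show x + M - K + K - M = x by omega, show ¬2 * M + 1 ≤ M + K by omega,
        show 0 + 1 ≤ M + K by omega] using this
    · have := f (x + M - K) (by omega) .B
      simpa [fillH, show M ≤ x + M - K + K ∧ x + M - K < M + K by omega,
        show x + M - K + K - M = x by omega, show ¬2 * M + 1 ≤ M + K by omega,
        show 0 + 1 ≤ M + K by omega] using this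
  have hb : T.r.bit = T'.l.bit := funext fun h => hs (.inr (.inl h))
  calc T.r = ⟨T.r.g, T.r.bit⟩ := rfl
    _ = T'.l := by rw [hg, hb]

theorem side_v {s : ℕ} (hr : T.u.g.InRange s) (hr' : T'.d.g.InRange s)
    (e : ∀ i < 2 * lvl s, (child F (lvl s) T i (2 * lvl s - 1)).u = (child F (lvl s) T' i 0).d) :
    T.u = T'.d := by
  have hK := K_large
  obtain ⟨M, hM, hM4⟩ : ∃ M, lvl s = M ∧ 4 * K ≤ M := ⟨_, rfl, lvl_ge s⟩
  rw [hM] at e
  have f : ∀ i < 2 * M, ∀ h, fillV F M T i (2 * M) h = fillV F M T' i 0 h := by
    intro i hi h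
    have := congrFun (congrArg Col.bit (e i hi)) h
    simpa [child, show 2 * M - 1 + 1 = 2 * M by omega] using this
  have hs : ∀ t, T.sideBit 3 t = T'.sideBit 2 t := by
    intro t
    have hb := cPos_bounds t 0
    obtain ⟨p, hp⟩ : ∃ p, cPos t 0 = p := ⟨_, rfl⟩
    rw [hp] at hb
    have := f (p + M - K) (by omega) .C
    simp only [fillV, show M ≤ p + M - K + K ∧ p + M - K < M + K by omega,
      show ¬(2 * M + 1 ≤ M + K) by omega, show 0 + 1 ≤ M + K by omega,
      show p + M - K + K - M = p by omega, and_self, decide_true, decide_false, Bool.true_and,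
      Bool.false_eq_true, if_false, if_true] at this
    rwa [← hp, shown_cPos, shown_cPos] at this
  have hg : T.u.g = T'.d.g := by
    refine GCol.eq_of_shown hr hr' (code_eq_of_bits fun k => hs (.inl k)) (fun w hw => ?_)
      (fun x hx => ?_) (fun x hx => ?_)
    · rw [hM] at hw
      have := f (M + K + w - 1) (by omega) .Mk
      simpa [fillV, show M + K ≤ M + K + w - 1 + 1 by omega,
        show ¬2 * M ≤ M + K + w - 1 by omega,
        show M + K + w - 1 + 1 - (M + K) = w by omega] using this
    · have := f (x + M - K) (by omega) .A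
      simpa [fillV, show M ≤ x + M - K + K ∧ x + M - K < M + K by omega,
        show x + M - K + K - M = x by omega, show ¬2 * M + 1 ≤ M + K by omega,
        show 0 + 1 ≤ M + K by omega] using this
    · have := f (x + M - K) (by omega) .B
      simpa [fillV, show M ≤ x + M - K + K ∧ x + M - K < M + K by omega,
        show x + M - K + K - M = x by omega, show ¬2 * M + 1 ≤ M + K by omega,
        show 0 + 1 ≤ M + K by omega] using this
  have hb : T.u.bit = T'.d.bit := funext fun h => hs (.inr (.inr h))
  calc T.u = ⟨T.u.g, T.u.bit⟩ := rfl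
    _ = T'.d := by rw [hg, hb]

/-- The outer sides of a block determine the sides of the parent. -/
theorem sideGoal : SideGoal := fun _ _ _ h h' =>
  ⟨fun e => side_h (inRange_of_hasGeom h 1) (inRange_of_hasGeom h' 0) e,
    fun e => side_v (inRange_of_hasGeom h 3) (inRange_of_hasGeom h' 2) e⟩

end Vale.Agent.P196.Full.Tiles
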