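import Vale.Agent.P196.Full.Tiles.Parse.Main
import Vale.Agent.P196.Full.Tiles.Parse.Sides
import Vale.Agent.P196.Full.Tiles.Equations.Transfer

/-!
# P196: a block of matching tiles has exactly one parent, and configurations parse uniquely
-/

namespace Vale.Agent.P196.Full.Tiles

open Parse

attribute [local irreducible] K M0 lvl

/-- The parent of a block of candidates is a tile of the next level. -/
theorem Parse.exists_parent_ok (hR : ReconstructGoal) (s : ℕ) {C : ℕ → ℕ → Set Tile}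
    {VS : Fin 4 → ℕ → Bool} {TS : Fin 2 → Fin 4 → ℕ → Bool} {sg : Sg → Bool}
    (c : Cand (lvl s) C) (H : Hubs (lvl s) C VS TS sg) :
    ∃ P, OK (s + 1) P ∧
      ∀ i j, i < 2 * lvl s → j < 2 * lvl s → ∀ t ∈ C i j, t = child forb (lvl s) P i j := by
  obtain ⟨T, hr, p, hA, hC⟩ := exists_parent_cand c H
  exact ⟨T, ⟨hR s T (hr s rfl) p.val.near (fun k => (p.coord k).near) hA, hA⟩, hC⟩

/-- Parents with the same children are equal. -/
theorem child_injective {s : ℕ} {T T' : Tile} (hT : ∀ k, (T.gs k).InRange s)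
    (hT' : ∀ k, (T'.gs k).InRange s)
    (h : ∀ i j, i < 2 * lvl s → j < 2 * lvl s →
      child forb (lvl s) T i j = child forb (lvl s) T' i j) : T = T' := by
  have hM := lvl_ge s
  have := K_large
  have hl : T.l = T'.l := by
    refine side_h (F := forb) (T := ⟨T.l, T.l, T.d, T.d⟩) (T' := T') (hT 0) (hT' 0)
      fun j hj => ?_
    rw [cross_h (T := ⟨T.l, T.l, T.d, T.d⟩) (T' := T) hM rfl hj, h 0 j (by omega) hj]
  have hd : T.d = T'.d := by
    refine side_v (F := forb) (T := ⟨T.l, T.l, T.d, T.d⟩) (T' := T') (hT 2) (hT' 2)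
      fun i hi => ?_
    rw [cross_v (T := ⟨T.l, T.l, T.d, T.d⟩) (T' := T) hM rfl hi, h i 0 hi (by omega)]
  have hr : T.r = T'.r := by
    refine (side_h (F := forb) (T := T') (T' := ⟨T.r, T.r, T.d, T.d⟩) (hT' 1) (hT 1)
      fun j hj => ?_).symm
    rw [← h _ j (by omega) hj]
    exact cross_h hM rfl hj
  have hu : T.u = T'.u := by
    refine (side_v (F := forb) (T := T') (T' := ⟨T.l, T.l, T.u, T.u⟩) (hT' 3) (hT 3)
      fun i hi => ?_).symm
    rw [← h i _ hi (by omega)]
    exact cross_v hM rfl hi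
  obtain ⟨l, r, d, u⟩ := T
  obtain ⟨l', r', d', u'⟩ := T'
  simp only at hl hr hd hu
  rw [hl, hr, hd, hu]

/-- One block of matching tiles with the geometry of a block comes from exactly one parent. -/
theorem blockParse_of_reconstruct (hR : ReconstructGoal) : BlockParseGoal := by
  intro s b hb hmh hmv
  have hM := lvl_ge s
  have := K_large
  have c : Cand (lvl s) fun i j => {b i j} :=
    { large := hM
      geom := fun i j hi hj T hT => hT ▸ (hb i j hi hj).2
      eqs := fun i j hi hj T hT => hT ▸ localEq_of_ok (hb i j hi hj).1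
      ne := fun i j _ _ => ⟨b i j, rfl⟩
      right := fun i j hi hj T hT => ⟨b (i + 1) j, rfl, hT ▸ hmh i j hi hj⟩
      left := fun i j hi hj T hT => ⟨b i j, rfl, hT ▸ hmh i j hi hj⟩
      up := fun i j hi hj T hT => ⟨b i (j + 1), rfl, hT ▸ hmv i j hi hj⟩
      down := fun i j hi hj T hT => ⟨b i j, rfl, hT ▸ hmv i j hi hj⟩ }
  have H : Hubs (lvl s) (fun i j => {b i j})
      (fun k v => (b (lvl s) (lvl s + K - 1 + v)).valMark k)
      (fun k t x => (b (lvl s - K + k) (lvl s - K + x)).tagMark k k t)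
      (fun q => (b (lvl s) (lvl s - K + sRow q)).hin K .P) :=
    ⟨fun v _ T hT k => by rw [show T = _ from hT], fun k x _ T hT t => by rw [show T = _ from hT],
      fun q T hT => by rw [show T = _ from hT]⟩
  obtain ⟨P, hP, hC⟩ := exists_parent_ok hR s c H
  refine ⟨P, hP, fun i j hi hj => hC i j hi hj _ rfl, fun T' hT' hT'C => ?_⟩
  exact child_injective (inRange_of_hasGeom (hasGeom_of_ok hT'))
    (inRange_of_hasGeom (hasGeom_of_ok hP))
    fun i j hi hj => (hT'C i j hi hj).symm.trans (hC i j hi hj _ rfl)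

/-- Configurations parse uniquely. -/
theorem parseGoal_of_reconstruct (hR : ReconstructGoal) : ParseGoal := by
  intro s x hok hm
  have hM := lvl_ge s
  have := K_large
  obtain ⟨o, hgeo, horig⟩ := exists_origin (fun z => hasGeom_of_ok (hok z)) hm
  have hmh : ∀ a a' c : ℤ, a + 1 = a' → (x (a, c)).r = (x (a', c)).l := fun a a' c e => by
    rw [hm.1 (a, c), ← e]
    simp
  have hmv : ∀ a c c' : ℤ, c + 1 = c' → (x (a, c)).u = (x (a, c')).d := fun a c c' e => by
    rw [hm.2 (a, c), ← e]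
    simp
  have blk : ∀ w : ℤ × ℤ, ∃ T, OK (s + 1) T ∧ (∀ i j, i < 2 * lvl s → j < 2 * lvl s →
      x (o.1 + 2 * (lvl s : ℤ) * w.1 + i, o.2 + 2 * (lvl s : ℤ) * w.2 + j) =
        child forb (lvl s) T i j) ∧
      ∀ T', OK (s + 1) T' → (∀ i j, i < 2 * lvl s → j < 2 * lvl s →
        x (o.1 + 2 * (lvl s : ℤ) * w.1 + i, o.2 + 2 * (lvl s : ℤ) * w.2 + j) =
          child forb (lvl s) T' i j) → T' = T := fun w =>
    blockParse_of_reconstruct hR s
      (fun i j => x (o.1 + 2 * (lvl s : ℤ) * w.1 + i, o.2 + 2 * (lvl s : ℤ) * w.2 + j))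
      (fun i j hi hj => ⟨hok _, hgeo w i j hi hj⟩)
      (fun i j _ _ => hmh _ _ _ (by push_cast; ring))
      (fun i j _ _ => hmv _ _ _ (by push_cast; ring))
  choose y hy hdec huniq using blk
  refine ⟨o, y, hdec, hy, ⟨fun w => ?_, fun w => ?_⟩, fun o' y' hdec' hy' => ?_⟩
  · refine (sideGoal s _ _ (hasGeom_of_ok (hy w)) (hasGeom_of_ok (hy (w + (1, 0))))).1 fun j hj => ?_
    rw [← hdec w _ j (by omega) hj, ← hdec (w + (1, 0)) 0 j (by omega) hj]
    simp only [Prod.fst_add, Prod.snd_add, add_zero]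
    refine hmh _ _ _ ?_
    rw [Nat.cast_sub (by omega)]
    push_cast
    ring
  · refine (sideGoal s _ _ (hasGeom_of_ok (hy w)) (hasGeom_of_ok (hy (w + (0, 1))))).2 fun i hi => ?_
    rw [← hdec w i _ hi (by omega), ← hdec (w + (0, 1)) i 0 hi (by omega)]
    simp only [Prod.fst_add, Prod.snd_add, add_zero]
    refine hmv _ _ _ ?_
    rw [Nat.cast_sub (by omega)]
    push_cast
    ring
  · obtain ⟨d, hd⟩ := horig o' (by
      have e := hdec' (0, 0) 0 0 (by omega) (by omega)
      simp only [mul_zero, Nat.cast_zero, add_zero] at e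
      rw [show o' = (o'.1, o'.2) from rfl, e]
      exact sameGeom_child _ _ _ _ _)
    refine ⟨d, hd, fun w => huniq (w + d) (y' w) (hy' w) fun i j hi hj => ?_⟩
    have e := hdec' w i j hi hj
    subst hd
    simp only [Prod.fst_add, Prod.snd_add] at e ⊢
    rw [← e]
    refine congrArg x (Prod.ext ?_ ?_) <;> ring

end Vale.Agent.P196.Full.Tiles
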