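import Vale.Agent.P196.Full.Tiles.Parse.Range

/-!
# P196: four colours modelled on a cell of a block are the colours of a cell

`Model` says that four colours have the kinds of the colours of a model cell, that their numbers
are translated, and that the critical numbers are kept.
-/

namespace Vale.Agent.P196.Full.Tiles.Parse

attribute [local irreducible] K M0 lvl

/-- A tag coordinate keeping the critical numbers. -/
structure Keeps (x₀ x : ℕ) : Prop where
  le : x ≤ 2 * K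
  full : x₀ = 2 * K ↔ x = 2 * K
  zero : x₀ = 0 ↔ x = 0
  geK : K ≤ x₀ ↔ K ≤ x
  gtK : K < x₀ ↔ K < x

/-- Colours modelled on others. -/
structure Model (M₀ M : ℕ) (g₀ g : Fin 4 → GCol) : Prop where
  outer : ∀ k o, g₀ k = .outer o → g k = .outer o
  side : ∀ k z h w₀, g₀ k = .side z h w₀ → ∃ w, g k = .side z h w ∧ w + K < M ∧
    (w₀ = 0 ↔ w = 0) ∧ (w₀ + K + 1 = M₀ ↔ w + K + 1 = M)
  rel : ∀ k l w₀ w₀' w w', (g₀ k).val = some w₀ → (g₀ l).val = some w₀' → (g k).val = some w →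
    (g l).val = some w' → w + w₀' = w' + w₀
  tag : ∀ k a₀ b₀, g₀ k = .tag a₀ b₀ → ∃ a b, g k = .tag a b ∧ Keeps a₀ a ∧ Keeps b₀ b
  tagRel : ∀ k l a₀ b₀ a₀' b₀' a b a' b', g₀ k = .tag a₀ b₀ → g₀ l = .tag a₀' b₀' →
    g k = .tag a b → g l = .tag a' b' →
    (a₀ < 2 * K → a₀' < 2 * K → a + a₀' = a' + a₀) ∧
      (b₀ < 2 * K → b₀' < 2 * K → b + b₀' = b' + b₀)
  last : ∀ k a₀ b₀ a b, k = 0 ∨ k = 2 → g₀ k = .tag a₀ b₀ → g k = .tag a b → a₀ < 2 * K →
    b₀ < 2 * K → (a₀ + 1 = 2 * K ↔ a + 1 = 2 * K) ∧ (b₀ + 1 = 2 * K ↔ b + 1 = 2 * K)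

/-- The side of a cell becoming the side `k` after transposing. -/
def trSide (k : Fin 4) : Fin 4 := ![2, 3, 0, 1] k

/-- Transposed colours. -/
def trG (g : Fin 4 → GCol) : Fin 4 → GCol := fun k => (g (trSide k)).tr

theorem tr_eq {x y : GCol} (h : x.tr = y) : x = y.tr := by
  rw [← h, Geo.GCol.tr_tr]

theorem trG_cellG (M i j : ℕ) : trG (CellG M i j) = CellG M j i := by
  funext k
  fin_cases k
  · exact Geo.geoV_tr M i j
  · exact Geo.geoV_tr M i (j + 1)
  · rfl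
  · rfl

theorem trG_trG (g : Fin 4 → GCol) : trG (trG g) = g := by
  funext k
  fin_cases k <;> exact Geo.GCol.tr_tr _

theorem Model.transpose {M₀ M : ℕ} {g₀ g : Fin 4 → GCol} (m : Model M₀ M g₀ g) :
    Model M₀ M (trG g₀) (trG g) := by
  have val : ∀ (h : Fin 4 → GCol) k, (trG h k).val = (h (trSide k)).val := fun h k => by
    unfold trG
    cases h (trSide k) <;> rfl
  refine ⟨fun k o h => ?_, fun k z hb w₀ h => ?_, fun k l w₀ w₀' w w' h1 h2 h3 h4 => ?_,
    fun k a b h => ?_, fun k l a₀ b₀ a₀' b₀' a b a' b' h1 h2 h3 h4 => ?_,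
    fun k a₀ b₀ a b hk h1 h2 ha hb => ?_⟩
  · show (g (trSide k)).tr = _
    rw [m.outer _ o (tr_eq h)]
    rfl
  · obtain ⟨w, e, hw⟩ := m.side _ (trZone z) hb w₀ (tr_eq h)
    refine ⟨w, ?_, hw⟩
    show (g (trSide k)).tr = _
    rw [e]
    show GCol.side (trZone (trZone z)) hb w = _
    rw [show trZone (trZone z) = z by fin_cases z <;> rfl]
  · rw [val] at h1 h2 h3 h4
    exact m.rel _ _ _ _ _ _ h1 h2 h3 h4
  · obtain ⟨b', a', e, hb', ha'⟩ := m.tag _ b a (tr_eq h)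
    exact ⟨a', b', by show (g (trSide k)).tr = _; rw [e]; rfl, ha', hb'⟩
  · exact (m.tagRel _ _ _ _ _ _ _ _ _ _ (tr_eq h1) (tr_eq h2) (tr_eq h3) (tr_eq h4)).symm
  · exact (m.last _ _ _ _ _ (by rcases hk with rfl | rfl <;> simp [trSide]) (tr_eq h1) (tr_eq h2)
      hb ha).symm

theorem geoV_outer {M i j : ℕ} (hj : j = 0 ∨ j = 2 * M) :
    geoV M i j = .outer (Geo.outK M i) := by
  rw [geoV, Geo.geoH_outer hj]
  rfl

theorem geoV_tag' {M i j : ℕ} (hM : 4 * K ≤ M) (h1 : M ≤ i + K) (h2 : i < M + K) (h3 : M ≤ j + K)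
    (h4 : j ≤ M + K) : geoV M i j = .tag (i + K - M) (j + K - M) := by
  rw [geoV, Geo.geoH_tag hM h3 h4 h1 h2]
  rfl

theorem geoV_bottom {M i j : ℕ} (h0 : 0 < j) (h1 : j + K < M) (h2 : j ≤ i) (h3 : j + i < 2 * M) :
    geoV M i j = .side 0 (decide (M ≤ i)) j := by
  rw [geoV, Geo.geoH_left h0 h1 h2 h3]
  rfl

theorem geoV_left {M i j : ℕ} (h1 : i < j) (h2 : j + i < 2 * M) (h3 : i + K < M) :
    geoV M i j = .side 2 (decide (M < j)) i := by
  rw [geoV, Geo.geoH_bottom h1 h2 h3]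
  rfl

theorem geoV_right {M i j : ℕ} (hi : i < 2 * M) (h1 : 2 * M < j + i + 1) (h2 : j ≤ i)
    (h3 : M + K ≤ i) : geoV M i j = .side 3 (decide (M < j)) (2 * M - 1 - i) := by
  rw [geoV, Geo.geoH_top hi h1 h2 h3]
  rfl

theorem geoV_top {M i j : ℕ} (h0 : j < 2 * M) (h1 : M + K < j) (h2 : i < j) (h3 : 2 * M ≤ j + i) :
    geoV M i j = .side 1 (decide (M ≤ i)) (2 * M - j) := by
  rw [geoV, Geo.geoH_right h0 h1 h2 h3]
  rfl

theorem outK_congr {M M' i i' : ℕ} (h0 : i = 0 ↔ i' = 0) (h1 : i + 1 = 2 * M ↔ i' + 1 = 2 * M')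
    (h2 : i < M ↔ i' < M') : Geo.outK M i = Geo.outK M' i' := by
  unfold Geo.outK
  split_ifs <;> first | rfl | omega

variable {M₀ M i₀ j₀ : ℕ} {g : Fin 4 → GCol}

theorem cellG_ext {i j : ℕ} (h0 : g 0 = geoH M i j) (h1 : g 1 = geoH M (i + 1) j)
    (h2 : g 2 = geoV M i j) (h3 : g 3 = geoV M i (j + 1)) : g = CellG M i j := by
  funext k
  fin_cases k <;> assumption

theorem exists_pos_bottom (hM₀ : 4 * K ≤ M₀) (hM : 4 * K ≤ M)
    (m : Model M₀ M (CellG M₀ i₀ j₀) g) (hj : j₀ + K < M₀) (hij : j₀ ≤ i₀)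
    (hs : i₀ + j₀ < 2 * M₀) : ∃ i j, i < 2 * M ∧ j < 2 * M ∧ g = CellG M i j := by
  have := Geo.one_le_K
  rcases Nat.eq_or_lt_of_le hij with rfl | hij
  · -- bottom left corner
    obtain ⟨w, e1, hw, hw0, -⟩ := m.side 1 0 (decide (M₀ < j₀ + 1)) j₀
      (Geo.geoH_bottom (by omega) (by omega) hj)
    obtain ⟨w', e3, -⟩ := m.side 3 2 (decide (M₀ < j₀ + 1)) j₀
      (geoV_left (by omega) (by omega) hj)
    have r := m.rel 1 3 j₀ j₀ w w' (congrArg GCol.val (Geo.geoH_bottom (by omega) (by omega) hj))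
      (congrArg GCol.val (geoV_left (by omega) (by omega) hj)) (by rw [e1]; rfl) (by rw [e3]; rfl)
    refine ⟨w, w, by omega, by omega, cellG_ext ?_ ?_ ?_ ?_⟩
    · rcases Nat.eq_zero_or_pos j₀ with h0 | h0
      · rw [m.outer 0 (Geo.outK M₀ j₀) (Geo.geoH_outer (Or.inl h0)), Geo.geoH_outer (Or.inl (hw0.1 h0)),
          outK_congr (M' := M) hw0 (by omega) (by omega)]
      · obtain ⟨u, e, -⟩ := m.side 0 2 _ j₀ (Geo.geoH_left h0 hj le_rfl hs)
        have := m.rel 1 0 j₀ j₀ w u (congrArg GCol.val (Geo.geoH_bottom (by omega) (by omega) hj))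
          (congrArg GCol.val (Geo.geoH_left h0 hj le_rfl hs)) (by rw [e1]; rfl) (by rw [e]; rfl)
        rw [e, Geo.geoH_left (by omega) hw le_rfl (by omega),
          decide_eq_decide.2 (show M₀ ≤ j₀ ↔ M ≤ w by omega), show u = w by omega]
    · rw [e1, Geo.geoH_bottom (by omega) (by omega) hw,
        decide_eq_decide.2 (show M₀ < j₀ + 1 ↔ M < w + 1 by omega)]
    · rcases Nat.eq_zero_or_pos j₀ with h0 | h0
      · rw [m.outer 2 (Geo.outK M₀ j₀) (geoV_outer (Or.inl h0)), geoV_outer (Or.inl (hw0.1 h0)),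
          outK_congr (M' := M) hw0 (by omega) (by omega)]
      · obtain ⟨u, e, -⟩ := m.side 2 0 _ j₀ (geoV_bottom h0 hj le_rfl hs)
        have := m.rel 1 2 j₀ j₀ w u (congrArg GCol.val (Geo.geoH_bottom (by omega) (by omega) hj))
          (congrArg GCol.val (geoV_bottom h0 hj le_rfl hs)) (by rw [e1]; rfl) (by rw [e]; rfl)
        rw [e, geoV_bottom (by omega) hw le_rfl (by omega),
          decide_eq_decide.2 (show M₀ ≤ j₀ ↔ M ≤ w by omega), show u = w by omega]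
    · rw [e3, geoV_left (by omega) (by omega) hw,
        decide_eq_decide.2 (show M₀ < j₀ + 1 ↔ M < w + 1 by omega), show w' = w by omega]
  obtain ⟨w, e0, hw, hw0, hwm⟩ := m.side 0 0 (decide (M₀ < i₀)) j₀
    (Geo.geoH_bottom hij hs hj)
  have hl : (CellG M₀ i₀ j₀ 0).val = some j₀ := congrArg GCol.val (Geo.geoH_bottom hij hs hj)
  by_cases hc : i₀ + j₀ + 1 = 2 * M₀
  · -- bottom right corner
    refine ⟨2 * M - 1 - w, w, by omega, by omega, cellG_ext ?_ ?_ ?_ ?_⟩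
    · rw [e0, Geo.geoH_bottom (by omega) (by omega) hw,
        decide_eq_decide.2 (show M₀ < i₀ ↔ M < 2 * M - 1 - w by omega)]
    · rcases Nat.eq_zero_or_pos j₀ with h0 | h0
      · rw [m.outer 1 (Geo.outK M₀ j₀) (Geo.geoH_outer (Or.inr (by omega))),
          Geo.geoH_outer (Or.inr (by omega)), outK_congr (M' := M) hw0 (by omega) (by omega)]
      · have f := Geo.geoH_right (M := M₀) (i := i₀ + 1) (j := j₀) (by omega) (by omega) (by omega)
          (by omega)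
        obtain ⟨u, e, -⟩ := m.side 1 3 _ _ f
        have := m.rel 0 1 j₀ _ w u hl (congrArg GCol.val f) (by rw [e0]; rfl) (by rw [e]; rfl)
        rw [e, Geo.geoH_right (by omega) (by omega) (by omega) (by omega),
          decide_eq_decide.2 (show M₀ ≤ j₀ ↔ M ≤ w by omega),
          show u = 2 * M - (2 * M - 1 - w + 1) by omega]
    · rcases Nat.eq_zero_or_pos j₀ with h0 | h0
      · rw [m.outer 2 (Geo.outK M₀ i₀) (geoV_outer (Or.inl h0)), geoV_outer (Or.inl (hw0.1 h0)),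
          outK_congr (M' := M) (by omega) (by omega) (show i₀ < M₀ ↔ 2 * M - 1 - w < M by omega)]
      · obtain ⟨u, e, -⟩ := m.side 2 0 _ j₀ (geoV_bottom h0 hj (by omega) (by omega))
        have := m.rel 0 2 j₀ j₀ w u hl (congrArg GCol.val (geoV_bottom h0 hj (by omega) (by omega)))
          (by rw [e0]; rfl) (by rw [e]; rfl)
        rw [e, geoV_bottom (by omega) hw (by omega) (by omega),
          decide_eq_decide.2 (show M₀ ≤ i₀ ↔ M ≤ 2 * M - 1 - w by omega), show u = w by omega]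
    · have f := geoV_right (M := M₀) (i := i₀) (j := j₀ + 1) (by omega) (by omega) (by omega)
        (by omega)
      obtain ⟨u, e, -⟩ := m.side 3 3 _ _ f
      have := m.rel 0 3 j₀ _ w u hl (congrArg GCol.val f) (by rw [e0]; rfl) (by rw [e]; rfl)
      rw [e, geoV_right (by omega) (by omega) (by omega) (by omega),
        decide_eq_decide.2 (show M₀ < j₀ + 1 ↔ M < w + 1 by omega),
        show u = 2 * M - 1 - (2 * M - 1 - w) by omega]
  -- interior of the bottom zone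
  have fr := Geo.geoH_bottom (M := M₀) (i := i₀ + 1) (j := j₀) (by omega) (by omega) hj
  obtain ⟨w1, e1, -⟩ := m.side 1 0 _ _ fr
  have r1 := m.rel 0 1 j₀ j₀ w w1 hl (congrArg GCol.val fr) (by rw [e0]; rfl) (by rw [e1]; rfl)
  have key : ∀ i, w < i → i + w + 1 < 2 * M → (M₀ ≤ i₀ ↔ M ≤ i) → (M₀ < i₀ ↔ M < i) →
      g 3 = geoV M i (w + 1) → ∃ i j, i < 2 * M ∧ j < 2 * M ∧ g = CellG M i j := by
    intro i hi1 hi2 hge hgt h3
    refine ⟨i, w, by omega, by omega, cellG_ext ?_ ?_ ?_ h3⟩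
    · rw [e0, Geo.geoH_bottom hi1 (by omega) hw, decide_eq_decide.2 hgt]
    · rw [e1, Geo.geoH_bottom (by omega) (by omega) hw,
        decide_eq_decide.2 (show M₀ < i₀ + 1 ↔ M < i + 1 by omega), show w1 = w by omega]
    · rcases Nat.eq_zero_or_pos j₀ with h0 | h0
      · rw [m.outer 2 (Geo.outK M₀ i₀) (geoV_outer (Or.inl h0)), geoV_outer (Or.inl (hw0.1 h0)),
          outK_congr (M' := M) (by omega) (by omega) (show i₀ < M₀ ↔ i < M by omega)]
      · have f := geoV_bottom (M := M₀) (i := i₀) h0 hj (by omega) (by omega)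
        obtain ⟨u, e, -⟩ := m.side 2 0 _ j₀ f
        have := m.rel 0 2 j₀ j₀ w u hl (congrArg GCol.val f) (by rw [e0]; rfl) (by rw [e]; rfl)
        rw [e, geoV_bottom (by omega) hw (by omega) (by omega), decide_eq_decide.2 hge,
          show u = w by omega]
  rcases Nat.lt_or_ge (j₀ + 1 + K) M₀ with hu | hu
  · have f := geoV_bottom (M := M₀) (i := i₀) (j := j₀ + 1) (by omega) hu (by omega) (by omega)
    obtain ⟨u, e, hu', -⟩ := m.side 3 0 _ _ f
    have := m.rel 0 3 j₀ _ w u hl (congrArg GCol.val f) (by rw [e0]; rfl) (by rw [e]; rfl)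
    obtain ⟨i, hi⟩ : ∃ i, i = if i₀ < M₀ then M - 1 else if i₀ = M₀ then M else M + 1 := ⟨_, rfl⟩
    have hi' : (i₀ < M₀ ∧ i = M - 1) ∨ (i₀ = M₀ ∧ i = M) ∨ (M₀ < i₀ ∧ i = M + 1) := by
      split_ifs at hi <;> omega
    refine key i (by omega) (by omega) (by omega) (by omega) ?_
    rw [e, geoV_bottom (by omega) (by omega) (by omega) (by omega),
      decide_eq_decide.2 (show M₀ ≤ i₀ ↔ M ≤ i by omega), show u = w + 1 by omega]
  · have f := geoV_tag' (M := M₀) (i := i₀) (j := j₀ + 1) hM₀ (by omega) (by omega) (by omega)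
      (by omega)
    obtain ⟨a, b, e, ka, kb⟩ := m.tag 3 _ _ f
    obtain ⟨ha1, ha2, ha3, ha4, ha5⟩ := ka
    obtain ⟨hb1, hb2, hb3, hb4, hb5⟩ := kb
    refine key (M - K + a) (by omega) (by omega) (by omega) (by omega) ?_
    rw [e, geoV_tag' hM (by omega) (by omega) (by omega) (by omega),
      show M - K + a + K - M = a by omega, show b = w + 1 + K - M by omega]

theorem exists_pos_top (hM₀ : 4 * K ≤ M₀) (hM : 4 * K ≤ M)
    (m : Model M₀ M (CellG M₀ i₀ j₀) g) (hj : M₀ + K ≤ j₀) (hj' : j₀ < 2 * M₀) (hij : i₀ ≤ j₀)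
    (hs : 2 * M₀ ≤ i₀ + j₀ + 1) : ∃ i j, i < 2 * M ∧ j < 2 * M ∧ g = CellG M i j := by
  have := Geo.one_le_K
  rcases Nat.eq_or_lt_of_le hs with hc | hs
  · -- top left corner
    have fr := Geo.geoH_top (M := M₀) (i := i₀ + 1) (j := j₀) hj' (by omega) (by omega) hj
    obtain ⟨w, e1, hw, hw0, -⟩ := m.side 1 1 _ _ fr
    have hl := congrArg GCol.val fr
    refine ⟨w, 2 * M - 1 - w, by omega, by omega, cellG_ext ?_ ?_ ?_ ?_⟩
    · rcases Nat.eq_zero_or_pos i₀ with h0 | h0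
      · rw [m.outer 0 (Geo.outK M₀ j₀) (Geo.geoH_outer (Or.inl h0)),
          Geo.geoH_outer (Or.inl (by omega)), outK_congr (M' := M) (by omega) (by omega)
            (show j₀ < M₀ ↔ 2 * M - 1 - w < M by omega)]
      · have f := Geo.geoH_left (M := M₀) (j := j₀) h0 (by omega) hij (by omega)
        obtain ⟨u, e, -⟩ := m.side 0 2 _ _ f
        have := m.rel 1 0 _ _ w u hl (congrArg GCol.val f) (by rw [e1]; rfl) (by rw [e]; rfl)
        rw [e, Geo.geoH_left (by omega) (by omega) (by omega) (by omega),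
          decide_eq_decide.2 (show M₀ ≤ j₀ ↔ M ≤ 2 * M - 1 - w by omega), show u = w by omega]
    · rw [e1, Geo.geoH_top (by omega) (by omega) (by omega) (by omega),
        decide_eq_decide.2 (show M₀ < i₀ + 1 ↔ M < w + 1 by omega),
        show 2 * M - 1 - (2 * M - 1 - w) = w by omega]
    · have f := geoV_left (M := M₀) (i := i₀) (j := j₀) (by omega) (by omega) (by omega)
      obtain ⟨u, e, -⟩ := m.side 2 2 _ _ f
      have := m.rel 1 2 _ _ w u hl (congrArg GCol.val f) (by rw [e1]; rfl) (by rw [e]; rfl)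
      rw [e, geoV_left (by omega) (by omega) (by omega),
        decide_eq_decide.2 (show M₀ < j₀ ↔ M < 2 * M - 1 - w by omega), show u = w by omega]
    · rcases Nat.eq_zero_or_pos i₀ with h0 | h0
      · rw [m.outer 3 (Geo.outK M₀ i₀) (geoV_outer (Or.inr (by omega))),
          geoV_outer (Or.inr (by omega)), outK_congr (M' := M) (show i₀ = 0 ↔ w = 0 by omega) (by omega)
            (by omega)]
      · have f := geoV_top (M := M₀) (i := i₀) (j := j₀ + 1) (by omega) (by omega) (by omega)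
          (by omega)
        obtain ⟨u, e, -⟩ := m.side 3 1 _ _ f
        have := m.rel 1 3 _ _ w u hl (congrArg GCol.val f) (by rw [e1]; rfl) (by rw [e]; rfl)
        rw [e, geoV_top (by omega) (by omega) (by omega) (by omega),
          decide_eq_decide.2 (show M₀ ≤ i₀ ↔ M ≤ w by omega),
          show u = 2 * M - (2 * M - 1 - w + 1) by omega]
  have f0 := Geo.geoH_top (M := M₀) (i := i₀) (j := j₀) hj' (by omega) hij hj
  obtain ⟨w, e0, hw, hw0, hwm⟩ := m.side 0 1 _ _ f0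
  have hl := congrArg GCol.val f0
  rcases Nat.eq_or_lt_of_le hij with rfl | hij
  · -- top right corner
    refine ⟨2 * M - 1 - w, 2 * M - 1 - w, by omega, by omega, cellG_ext ?_ ?_ ?_ ?_⟩
    · rw [e0, Geo.geoH_top (by omega) (by omega) le_rfl (by omega),
        decide_eq_decide.2 (show M₀ < i₀ ↔ M < 2 * M - 1 - w by omega),
        show 2 * M - 1 - (2 * M - 1 - w) = w by omega]
    · rcases Nat.lt_or_ge (i₀ + 1) (2 * M₀) with h0 | h0
      · have f := Geo.geoH_right (M := M₀) (i := i₀ + 1) (j := i₀) h0 (by omega) (by omega) (by omega)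
        obtain ⟨u, e, -⟩ := m.side 1 3 _ _ f
        have := m.rel 0 1 _ _ w u hl (congrArg GCol.val f) (by rw [e0]; rfl) (by rw [e]; rfl)
        rw [e, Geo.geoH_right (by omega) (by omega) (by omega) (by omega),
          decide_eq_decide.2 (show M₀ ≤ i₀ ↔ M ≤ 2 * M - 1 - w by omega),
          show u = 2 * M - (2 * M - 1 - w + 1) by omega]
      · rw [m.outer 1 (Geo.outK M₀ i₀) (Geo.geoH_outer (Or.inr (by omega))),
          Geo.geoH_outer (Or.inr (by omega)), outK_congr (M' := M) (by omega) (by omega)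
            (show i₀ < M₀ ↔ 2 * M - 1 - w < M by omega)]
    · have f := geoV_right (M := M₀) (i := i₀) (j := i₀) (by omega) (by omega) le_rfl hj
      obtain ⟨u, e, -⟩ := m.side 2 3 _ _ f
      have := m.rel 0 2 _ _ w u hl (congrArg GCol.val f) (by rw [e0]; rfl) (by rw [e]; rfl)
      rw [e, geoV_right (by omega) (by omega) le_rfl (by omega),
        decide_eq_decide.2 (show M₀ < i₀ ↔ M < 2 * M - 1 - w by omega),
        show u = 2 * M - 1 - (2 * M - 1 - w) by omega]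
    · rcases Nat.lt_or_ge (i₀ + 1) (2 * M₀) with h0 | h0
      · have f := geoV_top (M := M₀) (i := i₀) (j := i₀ + 1) h0 (by omega) (by omega) (by omega)
        obtain ⟨u, e, -⟩ := m.side 3 1 _ _ f
        have := m.rel 0 3 _ _ w u hl (congrArg GCol.val f) (by rw [e0]; rfl) (by rw [e]; rfl)
        rw [e, geoV_top (by omega) (by omega) (by omega) (by omega),
          decide_eq_decide.2 (show M₀ ≤ i₀ ↔ M ≤ 2 * M - 1 - w by omega),
          show u = 2 * M - (2 * M - 1 - w + 1) by omega]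
      · rw [m.outer 3 (Geo.outK M₀ i₀) (geoV_outer (Or.inr (by omega))),
          geoV_outer (Or.inr (by omega)), outK_congr (M' := M) (by omega) (by omega)
            (show i₀ < M₀ ↔ 2 * M - 1 - w < M by omega)]
  -- interior of the top zone
  have fr := Geo.geoH_top (M := M₀) (i := i₀ + 1) (j := j₀) hj' (by omega) (by omega) hj
  obtain ⟨w1, e1, -⟩ := m.side 1 1 _ _ fr
  have r1 := m.rel 0 1 _ _ w w1 hl (congrArg GCol.val fr) (by rw [e0]; rfl) (by rw [e1]; rfl)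
  obtain ⟨j, hje⟩ : ∃ j, j = 2 * M - 1 - w := ⟨_, rfl⟩
  have key : ∀ i, w < i → i < j → (M₀ ≤ i₀ ↔ M ≤ i) → (M₀ < i₀ ↔ M < i) →
      g 2 = geoV M i j → ∃ i j, i < 2 * M ∧ j < 2 * M ∧ g = CellG M i j := by
    intro i hi1 hi2 hge hgt h2
    refine ⟨i, j, by omega, by omega, cellG_ext ?_ ?_ h2 ?_⟩
    · rw [e0, Geo.geoH_top (by omega) (by omega) (by omega) (by omega), decide_eq_decide.2 hgt,
        show 2 * M - 1 - j = w by omega]
    · rw [e1, Geo.geoH_top (by omega) (by omega) (by omega) (by omega),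
        decide_eq_decide.2 (show M₀ < i₀ + 1 ↔ M < i + 1 by omega),
        show w1 = 2 * M - 1 - j by omega]
    · rcases Nat.lt_or_ge (j₀ + 1) (2 * M₀) with h0 | h0
      · have f := geoV_top (M := M₀) (i := i₀) (j := j₀ + 1) h0 (by omega) (by omega) (by omega)
        obtain ⟨u, e, -⟩ := m.side 3 1 _ _ f
        have := m.rel 0 3 _ _ w u hl (congrArg GCol.val f) (by rw [e0]; rfl) (by rw [e]; rfl)
        rw [e, geoV_top (by omega) (by omega) (by omega) (by omega), decide_eq_decide.2 hge,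
          show u = 2 * M - (j + 1) by omega]
      · rw [m.outer 3 (Geo.outK M₀ i₀) (geoV_outer (Or.inr (by omega))),
          geoV_outer (Or.inr (by omega)), outK_congr (M' := M) (by omega) (by omega)
            (show i₀ < M₀ ↔ i < M by omega)]
  rcases Nat.lt_or_ge (M₀ + K) j₀ with hu | hu
  · have f := geoV_top (M := M₀) (i := i₀) (j := j₀) hj' hu hij (by omega)
    obtain ⟨u, e, hu', -⟩ := m.side 2 1 _ _ f
    have := m.rel 0 2 _ _ w u hl (congrArg GCol.val f) (by rw [e0]; rfl) (by rw [e]; rfl)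
    obtain ⟨i, hi⟩ : ∃ i, i = if i₀ < M₀ then M - 1 else if i₀ = M₀ then M else M + 1 := ⟨_, rfl⟩
    have hi' : (i₀ < M₀ ∧ i = M - 1) ∨ (i₀ = M₀ ∧ i = M) ∨ (M₀ < i₀ ∧ i = M + 1) := by
      split_ifs at hi <;> omega
    refine key i (by omega) (by omega) (by omega) (by omega) ?_
    rw [e, geoV_top (by omega) (by omega) (by omega) (by omega),
      decide_eq_decide.2 (show M₀ ≤ i₀ ↔ M ≤ i by omega), show u = 2 * M - j by omega]
  · have f := geoV_tag' (M := M₀) (i := i₀) (j := j₀) hM₀ (by omega) (by omega) (by omega) (by omega)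
    obtain ⟨a, b, e, ka, kb⟩ := m.tag 2 _ _ f
    obtain ⟨ha1, ha2, ha3, ha4, ha5⟩ := ka
    obtain ⟨hb1, hb2, hb3, hb4, hb5⟩ := kb
    refine key (M - K + a) (by omega) (by omega) (by omega) (by omega) ?_
    rw [e, geoV_tag' hM (by omega) (by omega) (by omega) (by omega),
      show M - K + a + K - M = a by omega, show b = j + K - M by omega]

theorem exists_pos_tag (hM₀ : 4 * K ≤ M₀) (hM : 4 * K ≤ M)
    (m : Model M₀ M (CellG M₀ i₀ j₀) g) (h1 : M₀ ≤ i₀ + K) (h2 : i₀ < M₀ + K)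
    (h3 : M₀ ≤ j₀ + K) (h4 : j₀ < M₀ + K) : ∃ i j, i < 2 * M ∧ j < 2 * M ∧ g = CellG M i j := by
  have := Geo.one_le_K
  have f0 := Geo.geoH_tag hM₀ h1 h2.le h3 h4
  have f1 := Geo.geoH_tag hM₀ (i := i₀ + 1) (by omega) h2 h3 h4
  have f2 := geoV_tag' hM₀ h1 h2 h3 h4.le
  have f3 := geoV_tag' hM₀ (j := j₀ + 1) h1 h2 (by omega) h4
  obtain ⟨a, b, e0, ka, kb⟩ := m.tag 0 _ _ f0
  obtain ⟨a1, b1, e1, ⟨p1, p2, -, -, -⟩, ⟨q1, q2, -, -, -⟩⟩ := m.tag 1 _ _ f1
  obtain ⟨a2, b2, e2, ⟨r1, r2, -, -, -⟩, ⟨s1, s2, -, -, -⟩⟩ := m.tag 2 _ _ f2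
  obtain ⟨a3, b3, e3, ⟨t1, t2, -, -, -⟩, ⟨u1, u2, -, -, -⟩⟩ := m.tag 3 _ _ f3
  obtain ⟨c1, c2⟩ := m.tagRel 0 1 _ _ _ _ _ _ _ _ f0 f1 e0 e1
  obtain ⟨d1, d2⟩ := m.tagRel 0 2 _ _ _ _ _ _ _ _ f0 f2 e0 e2
  obtain ⟨g1, g2⟩ := m.tagRel 0 3 _ _ _ _ _ _ _ _ f0 f3 e0 e3
  obtain ⟨l1, l2⟩ := m.last 0 _ _ _ _ (Or.inl rfl) f0 e0 (by omega) (by omega)
  obtain ⟨ha1, ha2, -, -, -⟩ := ka
  obtain ⟨hb1, hb2, -, -, -⟩ := kb
  refine ⟨M - K + a, M - K + b, by omega, by omega, cellG_ext ?_ ?_ ?_ ?_⟩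
  · rw [e0, Geo.geoH_tag hM (by omega) (by omega) (by omega) (by omega)]
    congr 1 <;> omega
  · rw [e1, Geo.geoH_tag hM (by omega) (by omega) (by omega) (by omega)]
    congr 1 <;> omega
  · rw [e2, geoV_tag' hM (by omega) (by omega) (by omega) (by omega)]
    congr 1 <;> omega
  · rw [e3, geoV_tag' hM (by omega) (by omega) (by omega) (by omega)]
    congr 1 <;> omega

/-- Colours modelled on a cell are the colours of a cell. -/
theorem Model.exists_pos (hM₀ : 4 * K ≤ M₀) (hM : 4 * K ≤ M) (hi : i₀ < 2 * M₀)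
    (hj : j₀ < 2 * M₀) (m : Model M₀ M (CellG M₀ i₀ j₀) g) :
    ∃ i j, i < 2 * M ∧ j < 2 * M ∧ g = CellG M i j := by
  by_cases ht : M₀ ≤ i₀ + K ∧ i₀ < M₀ + K ∧ M₀ ≤ j₀ + K ∧ j₀ < M₀ + K
  · exact exists_pos_tag hM₀ hM m ht.1 ht.2.1 ht.2.2.1 ht.2.2.2
  by_cases hb : j₀ + K < M₀ ∧ j₀ ≤ i₀ ∧ i₀ + j₀ < 2 * M₀
  · exact exists_pos_bottom hM₀ hM m hb.1 hb.2.1 hb.2.2
  by_cases htp : M₀ + K ≤ j₀ ∧ i₀ ≤ j₀ ∧ 2 * M₀ ≤ i₀ + j₀ + 1
  · exact exists_pos_top hM₀ hM m htp.1 hj htp.2.1 htp.2.2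
  have mt := m.transpose
  rw [trG_cellG] at mt
  suffices h : ∃ i j, i < 2 * M ∧ j < 2 * M ∧ trG g = CellG M i j by
    obtain ⟨i, j, h1, h2, e⟩ := h
    exact ⟨j, i, h2, h1, by rw [← trG_trG g, e, trG_cellG]⟩
  by_cases hl : i₀ + K < M₀
  · exact exists_pos_bottom hM₀ hM mt hl (by omega) (by omega)
  · exact exists_pos_top hM₀ hM mt (by omega) hi (by omega) (by omega)

end Vale.Agent.P196.Full.Tiles.Parse
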