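import Vale.Agent.P196.Full.Tiles.Parse.Block
import Vale.Agent.P196.Full.Tiles.Parse.Model

/-!
# P196: an allowed signature with near numbers in range comes from a cell of the level above
-/

namespace Vale.Agent.P196.Full.Tiles

open Parse

attribute [local irreducible] K M0 lvl opBit

theorem Parse.scanBit_late (v : Fin 4 → Option ℕ) (m : ℕ) (s : Fin 4) :
    scanBit v m 0 ⟨4 + s, by omega⟩ = true ↔ Late v s := by
  unfold scanBit Late
  simp only [dif_neg (show ¬ 4 + (s : ℕ) < 4 by omega), dif_pos (show 4 + (s : ℕ) < 8 by omega),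
    Nat.add_sub_cancel_left, Fin.eta, Nat.zero_le, decide_true, Bool.and_eq_true, decide_eq_true_eq]
  cases h : v s with
  | none => simp
  | some w =>
    simp only [Option.any_some, true_and, Option.some.injEq, exists_eq_left']
    refine exists_congr fun t => ?_
    cases v t with
    | none => simp
    | some w' => simp

/-- Numbers with the same late bits are translates of each other. -/
theorem Parse.shift_of_late {v v₀ : Fin 4 → Option ℕ} (hn : Near v) (hn₀ : Near v₀)
    (hs : ∀ s, (v s).isSome = (v₀ s).isSome) (hl : ∀ s, Late v s ↔ Late v₀ s)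
    {k l : Fin 4} {w w' x x' : ℕ} (hk : v k = some w) (hl' : v l = some w')
    (hk₀ : v₀ k = some x) (hl₀ : v₀ l = some x') : w + x' = w' + x := by
  have key : ∀ {k l : Fin 4} {w w' x x' : ℕ}, v k = some w → v l = some w' → v₀ k = some x →
      v₀ l = some x' → x < x' → w + x' = w' + x := by
    intro k l w w' x x' hk hl' hk₀ hl₀ hlt
    obtain ⟨y, hy, u, y', hu, hyu⟩ := (hl k).2 ⟨x, hk₀, l, x', hl₀, hlt⟩
    obtain rfl : w = y := Option.some.inj (hk.symm.trans hy)
    have h1 := hn u k y' w hu hk
    have h2 := hn₀ l k x' x hl₀ hk₀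
    have h3 := hn l k w' w hl' hk
    by_cases hw : w' ≤ w
    · obtain ⟨z, hz, r, z', hr, hzr⟩ := (hl l).1 ⟨w', hl', u, y', hu, by omega⟩
      obtain rfl : x' = z := Option.some.inj (hl₀.symm.trans hz)
      have := hn₀ r k z' x hr hk₀
      omega
    · omega
  rcases Nat.lt_trichotomy x x' with h | h | h
  · exact key hk hl' hk₀ hl₀ h
  · have := eq_of_late hn hs hl (hk₀.trans (h ▸ hl₀.symm))
    rw [hk, hl'] at this
    have := Option.some.inj this
    omega
  · have := key hl' hk hl₀ hk₀ h
    omega

theorem Parse.sideBit_code (T : Tile) (k n : Fin 4) :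
    T.sideBit k (.inl n) = (T.gs k).code.testBit n := by
  fin_cases k <;> rfl

theorem Parse.tagCell_of_tag {T : Tile} {a b : ℕ} (h : T.gs 0 = .tag a b) (ha : a < 2 * K)
    (hb : b < 2 * K) : T.tagCell = some (a, b) := by
  have h' : T.l.g = .tag a b := h
  simp [Tile.tagCell, h', ha, hb]

/-- An allowed signature with near numbers in range comes from a cell of the level above. -/
theorem reconstructGoal : ReconstructGoal := by
  intro s T hr hv hc hA
  obtain ⟨F, T', i', j', hT', -, hi', hj', hsig⟩ := hA
  obtain ⟨C₀, hC₀⟩ : ∃ C₀, C₀ = child F (lvl 1) T' i' j' := ⟨_, rfl⟩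
  rw [← hC₀] at hsig
  have g₀ : HasGeom 1 C₀ := hC₀ ▸ hasGeom_child F 1 T' hi' hj'
  have rng₀ := inRange_of_hasGeom g₀
  obtain ⟨i₀, j₀, hi₀, hj₀, hcell⟩ := hasGeom_iff.1 g₀
  have e1 : lvl (s + 1) = lvl s + 1 := lvl_succ s
  have e0 : lvl 1 = lvl 0 + 1 := lvl_succ 0
  have hMs := Geo.four_K_le_lvl s
  have hM0 := Geo.four_K_le_lvl 0
  have := Geo.one_le_K
  have hc0 : ∀ (c : Fin 2), Near fun k => (C₀.gs k).coord c := by
    intro c k k' x x' hx hx'
    simp only [hcell] at hx hx'
    have hx1 := (coord_eq_some (coord_lt hx)).1 hx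
    have hx1' := (coord_eq_some (coord_lt hx')).1 hx'
    cases h : CellG (lvl 1) i₀ j₀ k with
    | tag a b =>
      cases h' : CellG (lvl 1) i₀ j₀ k' with
      | tag a' b' =>
        obtain ⟨-, p1, p2⟩ := cellG_tag k h
        obtain ⟨-, p3, p4⟩ := cellG_tag k' h'
        rw [h] at hx1
        rw [h'] at hx1'
        simp only [GCol.tagA, GCol.tagB] at hx1 hx1'
        split_ifs at hx1 hx1' with hcc <;>
          · rw [Option.some.injEq] at hx1 hx1'
            omega
      | _ => rw [h'] at hx1'; simp [GCol.tagA, GCol.tagB] at hx1'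
    | _ => rw [h] at hx1; simp [GCol.tagA, GCol.tagB] at hx1
  have hv0 : Near fun k => (C₀.gs k).val := fun k k' w w' h h' => by
    simp only [hcell] at h h'
    exact cellG_close hi₀ hj₀ k k' h h'
  have code : ∀ k, (T.gs k).code = (C₀.gs k).code := fun k => code_eq_of_bits fun n => by
    rw [← sideBit_code, ← sideBit_code]
    exact congrFun hsig (.side k (.inl n) 0)
  have scan : ∀ i, scanBit (fun k => (T.gs k).val) (lvl s - K) 0 i =
      scanBit (fun k => (C₀.gs k).val) (lvl 0 - K) 0 i := fun i => congrFun hsig (.scan i)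
  have coord : ∀ c p i, coordBit (fun k => (T.gs k).coord c) (snap p) i =
      coordBit (fun k => (C₀.gs k).coord c) (snap p) i := fun c p i => congrFun hsig (.coord c p i)
  have vsome : ∀ k, (T.gs k).val.isSome = (C₀.gs k).val.isSome := fun k => by
    have := scan ⟨k, by omega⟩
    rwa [scanBit_zero_seen, scanBit_zero_seen] at this
  have csome : ∀ c k, ((T.gs k).coord c).isSome = ((C₀.gs k).coord c).isSome := fun c k => by
    have := coord c 0 ⟨k, by omega⟩
    rwa [snap_zero, coordBit_zero_seen, coordBit_zero_seen] at this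
  have vlate : ∀ k, Late (fun k => (T.gs k).val) k ↔ Late (fun k => (C₀.gs k).val) k := fun k => by
    rw [← scanBit_late (m := lvl s - K), scan, scanBit_late]
  have clate : ∀ c k, Late (fun k => (T.gs k).coord c) k ↔ Late (fun k => (C₀.gs k).coord c) k :=
    fun c k => by rw [← coordBit_zero_late, ← coordBit_zero_late, ← snap_zero, coord]
  have cshift : ∀ c k l w w' x x', (T.gs k).coord c = some w → (T.gs l).coord c = some w' →
      (C₀.gs k).coord c = some x → (C₀.gs l).coord c = some x' → w + x' = w' + x :=
    fun c k l w w' x x' => shift_of_late (hc c) (hc0 c) (csome c) (clate c)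
  -- one coordinate keeps the critical numbers
  have keeps : ∀ (c : Fin 2) k x₀ x, x₀ ≤ 2 * K → x ≤ 2 * K →
      (C₀.gs k).coord c = (if x₀ < 2 * K then some x₀ else none) →
      (T.gs k).coord c = (if x < 2 * K then some x else none) → Keeps x₀ x := by
    intro c k x₀ x hx₀ hx h₀ h
    have hiff : x₀ < 2 * K ↔ x < 2 * K := by
      have := csome c k
      rw [h, h₀] at this
      by_cases p : x < 2 * K <;> by_cases q : x₀ < 2 * K <;> simp [p, q] at this ⊢
    by_cases hlt : x < 2 * K
    swap
    · obtain rfl : x = 2 * K := by omega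
      obtain rfl : x₀ = 2 * K := by omega
      exact ⟨le_rfl, Iff.rfl, Iff.rfl, Iff.rfl, Iff.rfl⟩
    rw [if_pos hlt] at h
    rw [if_pos (hiff.2 hlt)] at h₀
    have seen : ∀ p, (decide (snap p ≤ x) : Bool) = decide (snap p ≤ x₀) := fun p => by
      have := coord c p ⟨k, by omega⟩
      simpa [coordBit, h, h₀] using this
    have hge := seen 1
    have hgt := seen 2
    simp only [decide_eq_decide] at hge hgt
    rw [show snap 1 = K by simp [snap]] at hge
    rw [show snap 2 = K + 1 by simp [snap]] at hgt
    have here := coord c 0 8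
    simp [coordBit, snap_zero] at here
    refine ⟨hx, by omega, ⟨fun e => ?_, fun e => ?_⟩, hge.symm, by omega⟩
    · obtain ⟨l, hl⟩ := here.2 ⟨k, e ▸ h₀⟩
      obtain ⟨y, hy⟩ := Option.isSome_iff_exists.1 ((csome c l).symm.trans (by rw [hl]; rfl))
      have := cshift c k l x 0 x₀ y h hl h₀ hy
      omega
    · obtain ⟨l, hl⟩ := here.1 ⟨k, e ▸ h⟩
      obtain ⟨y, hy⟩ := Option.isSome_iff_exists.1 ((csome c l).trans (by rw [hl]; rfl))
      have := cshift c k l x y x₀ 0 h hy h₀ hl
      omega
  have coordTag : ∀ {g : GCol} {a b : ℕ}, g = .tag a b →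
      g.coord 0 = (if a < 2 * K then some a else none) ∧
      g.coord 1 = (if b < 2 * K then some b else none) := by
    rintro g a b rfl
    constructor <;> simp [GCol.coord, GCol.tagA, GCol.tagB, Option.filter]
  have m : Model (lvl 1) (lvl (s + 1)) C₀.gs T.gs := by
    refine ⟨fun k o h => code_outer ((code k).trans (congrArg GCol.code h)), fun k z hb w₀ h => ?_,
      fun k l w₀ w₀' w w' h1 h2 h3 h4 => shift_of_late hv hv0 vsome vlate h3 h4 h1 h2,
      fun k a₀ b₀ h => ?_, fun k l a₀ b₀ a₀' b₀' a b a' b' h1 h2 h3 h4 => ?_,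
      fun k a₀ b₀ a b hk h1 h2 ha hb => ?_⟩
    · obtain ⟨w, hw⟩ := code_side ((code k).trans (congrArg GCol.code h))
      have r := hr k
      rw [hw] at r
      have r0 := rng₀ k
      rw [h] at r0
      simp only [GCol.InRange] at r r0
      have zero := scan ⟨8 + k, by omega⟩
      have top := scan ⟨12 + k, by omega⟩
      simp [scanBit, hw, h, GCol.val, show ¬8 + (k : ℕ) < 4 by omega, show ¬8 + (k : ℕ) < 8 by omega,
        show 8 + (k : ℕ) < 12 by omega] at zero
      simp [scanBit, hw, h, GCol.val, show ¬12 + (k : ℕ) < 4 by omega,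
        show ¬12 + (k : ℕ) < 8 by omega, show ¬12 + (k : ℕ) < 12 by omega,
        show 12 + (k : ℕ) < 16 by omega] at top
      refine ⟨w, hw, by omega, ?_, ?_⟩
      · omega
      · omega
    · obtain ⟨a, b, e, -⟩ := code_tag ((code k).trans (congrArg GCol.code h))
      have r := hr k
      rw [e] at r
      have r0 := rng₀ k
      rw [h] at r0
      exact ⟨a, b, e, keeps 0 k a₀ a r0.1 r.1 (coordTag h).1 (coordTag e).1,
        keeps 1 k b₀ b r0.2 r.2 (coordTag h).2 (coordTag e).2⟩
    · constructor <;> intro p1 p2
      · have s1 := csome 0 k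
        have s2 := csome 0 l
        rw [(coordTag h1).1, (coordTag h3).1, if_pos p1] at s1
        rw [(coordTag h2).1, (coordTag h4).1, if_pos p2] at s2
        have q1 : a < 2 * K := by by_contra hh; simp [hh] at s1
        have q2 : a' < 2 * K := by by_contra hh; simp [hh] at s2
        refine cshift 0 k l a a' a₀ a₀' ?_ ?_ ?_ ?_
        · rw [(coordTag h3).1, if_pos q1]
        · rw [(coordTag h4).1, if_pos q2]
        · rw [(coordTag h1).1, if_pos p1]
        · rw [(coordTag h2).1, if_pos p2]
      · have s1 := csome 1 k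
        have s2 := csome 1 l
        rw [(coordTag h1).2, (coordTag h3).2, if_pos p1] at s1
        rw [(coordTag h2).2, (coordTag h4).2, if_pos p2] at s2
        have q1 : b < 2 * K := by by_contra hh; simp [hh] at s1
        have q2 : b' < 2 * K := by by_contra hh; simp [hh] at s2
        refine cshift 1 k l b b' b₀ b₀' ?_ ?_ ?_ ?_
        · rw [(coordTag h3).2, if_pos q1]
        · rw [(coordTag h4).2, if_pos q2]
        · rw [(coordTag h1).2, if_pos p1]
        · rw [(coordTag h2).2, if_pos p2]
    · -- the left edge carries the same tag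
      have h0 : C₀.gs 0 = .tag a₀ b₀ := by
        rcases hk with rfl | rfl
        · exact h1
        · rw [hcell] at h1 ⊢
          obtain ⟨p1, p2, p3, p4, p5, p6⟩ :=
            Geo.tag_inv (geoV_tag (h1 : geoV (lvl 1) i₀ j₀ = .tag a₀ b₀))
          show geoH (lvl 1) i₀ j₀ = _
          rw [Geo.geoH_tag (by omega) (by omega) (by omega) (by omega) (by omega)]
          congr 1 <;> omega
      obtain ⟨a', b', e', -⟩ := code_tag ((code 0).trans (congrArg GCol.code h0))
      have a'lt : a' < 2 * K := by
        by_contra hh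
        have := csome 0 0
        rw [(coordTag h0).1, (coordTag e').1, if_pos ha, if_neg hh] at this
        simp at this
      have b'lt : b' < 2 * K := by
        by_contra hh
        have := csome 1 0
        rw [(coordTag h0).2, (coordTag e').2, if_pos hb, if_neg hh] at this
        simp at this
      have alt : a < 2 * K := by
        by_contra hh
        have := csome 0 k
        rw [(coordTag h1).1, (coordTag h2).1, if_pos ha, if_neg hh] at this
        simp at this
      have blt : b < 2 * K := by
        by_contra hh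
        have := csome 1 k
        rw [(coordTag h1).2, (coordTag h2).2, if_pos hb, if_neg hh] at this
        simp at this
      have ea := cshift 0 0 k a' a a₀ a₀ (by rw [(coordTag e').1, if_pos a'lt])
        (by rw [(coordTag h2).1, if_pos alt]) (by rw [(coordTag h0).1, if_pos ha])
        (by rw [(coordTag h1).1, if_pos ha])
      have eb := cshift 1 0 k b' b b₀ b₀ (by rw [(coordTag e').2, if_pos b'lt])
        (by rw [(coordTag h2).2, if_pos blt]) (by rw [(coordTag h0).2, if_pos hb])
        (by rw [(coordTag h1).2, if_pos hb])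
      have op : ∀ n, opBit forb a' b' n = opBit F a₀ b₀ n := fun n => by
        have := congrFun hsig (.op n)
        simpa [sig, tagCell_of_tag e' a'lt b'lt, tagCell_of_tag h0 ha hb] using this
      have o3 := op 3
      have o5 := op 5
      unfold opBit at o3 o5
      simp at o3 o5
      omega
  obtain ⟨i, j, hi, hj, e⟩ :=
    Model.exists_pos (Geo.four_K_le_lvl 1) (Geo.four_K_le_lvl (s + 1)) hi₀ hj₀ (hcell ▸ m)
  exact hasGeom_iff.2 ⟨i, j, hi, hj, e⟩

/-- Configurations parse uniquely. -/
theorem parseGoal : ParseGoal := parseGoal_of_reconstruct reconstructGoal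

/-- One block of matching tiles comes from exactly one parent. -/
theorem blockParseGoal : BlockParseGoal := blockParse_of_reconstruct reconstructGoal

end Vale.Agent.P196.Full.Tiles
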