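import Vale.Agent.P196.Full.Tiles.Parse.Columns
import Vale.Agent.P196.Full.Tiles.Parse.Markers

/-!
# P196: blocks of candidate tiles, their paths and their hubs
-/

namespace Vale.Agent.P196.Full.Tiles.Parse

/-- Every cell of a block has candidates, each matching some candidate of each neighbour. -/
structure Cand (M : ℕ) (C : ℕ → ℕ → Set Tile) : Prop where
  large : 4 * K ≤ M
  geom : ∀ i j, i < 2 * M → j < 2 * M → ∀ T ∈ C i j, SameGeom M i j T
  eqs : ∀ i j, i < 2 * M → j < 2 * M → ∀ T ∈ C i j, LocalEq forb T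
  ne : ∀ i j, i < 2 * M → j < 2 * M → (C i j).Nonempty
  right : ∀ i j, i + 1 < 2 * M → j < 2 * M → ∀ T ∈ C i j, ∃ T' ∈ C (i + 1) j, T.r = T'.l
  left : ∀ i j, i + 1 < 2 * M → j < 2 * M → ∀ T ∈ C (i + 1) j, ∃ T' ∈ C i j, T'.r = T.l
  up : ∀ i j, i < 2 * M → j + 1 < 2 * M → ∀ T ∈ C i j, ∃ T' ∈ C i (j + 1), T.u = T'.d
  down : ∀ i j, i < 2 * M → j + 1 < 2 * M → ∀ T ∈ C i (j + 1), ∃ T' ∈ C i j, T'.u = T.d

/-- A choice of candidates. -/
def Chosen (M : ℕ) (C : ℕ → ℕ → Set Tile) (b : ℕ → ℕ → Tile) : Prop :=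
  ∀ i j, i < 2 * M → j < 2 * M → b i j ∈ C i j

/-- A choice of candidates matching along every row. -/
structure HPath (M : ℕ) (C : ℕ → ℕ → Set Tile) (b : ℕ → ℕ → Tile) : Prop extends HBlk M b where
  chosen : Chosen M C b

/-- A choice of candidates matching along every column. -/
structure VPath (M : ℕ) (C : ℕ → ℕ → Set Tile) (b : ℕ → ℕ → Tile) : Prop extends VBlk M b where
  chosen : Chosen M C b

variable {M : ℕ} {C : ℕ → ℕ → Set Tile} {b : ℕ → ℕ → Tile}

/-- A chain through a given term in a graded relation without dead ends. -/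
theorem exists_chain {α : Type} {N : ℕ} {S : ℕ → Set α} {R : α → α → Prop}
    (fwd : ∀ i, i + 1 < N → ∀ a ∈ S i, ∃ a' ∈ S (i + 1), R a a')
    (bwd : ∀ i, i + 1 < N → ∀ a ∈ S (i + 1), ∃ a' ∈ S i, R a' a) :
    ∀ i, i < N → ∀ a ∈ S i,
      ∃ f : ℕ → α, f i = a ∧ (∀ k, k < N → f k ∈ S k) ∧ ∀ k, k + 1 < N → R (f k) (f (k + 1)) := by
  classical
  have front : ∀ n i, N ≤ i + n + 1 → i < N → ∀ a ∈ S i, ∃ f : ℕ → α, f i = a ∧
      (∀ k, i ≤ k → k < N → f k ∈ S k) ∧ ∀ k, i ≤ k → k + 1 < N → R (f k) (f (k + 1)) := by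
    intro n
    induction n with
    | zero =>
      intro i hN hi a ha
      exact ⟨fun _ => a, rfl, fun k h1 h2 => by rwa [show k = i by omega],
        fun k h1 h2 => absurd h2 (by omega)⟩
    | succ n ih =>
      intro i hN hi a ha
      rcases Nat.lt_or_ge (i + 1) N with hi' | hi'
      · obtain ⟨a', ha', hR⟩ := fwd i hi' a ha
        obtain ⟨f, f0, f1, f2⟩ := ih (i + 1) (by omega) hi' a' ha'
        refine ⟨Function.update f i a, Function.update_self i a f, fun k h1 h2 => ?_, fun k h1 h2 => ?_⟩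
        · rcases Nat.eq_or_lt_of_le h1 with rfl | h1
          · simpa using ha
          · rw [Function.update_of_ne (by omega)]
            exact f1 k h1 h2
        · rcases Nat.eq_or_lt_of_le h1 with rfl | h1
          · rw [Function.update_self, Function.update_of_ne (by omega), f0]
            exact hR
          · rw [Function.update_of_ne (by omega), Function.update_of_ne (by omega)]
            exact f2 k h1 h2
      · exact ⟨fun _ => a, rfl, fun k h1 h2 => by rwa [show k = i by omega],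
          fun k h1 h2 => absurd h2 (by omega)⟩
  have back : ∀ i, i < N → ∀ a ∈ S i, ∃ f : ℕ → α, f i = a ∧
      (∀ k, k ≤ i → f k ∈ S k) ∧ ∀ k, k < i → R (f k) (f (k + 1)) := by
    intro i
    induction i with
    | zero =>
      intro _ a ha
      exact ⟨fun _ => a, rfl, fun k hk => by rwa [show k = 0 by omega],
        fun k hk => absurd hk (by omega)⟩
    | succ i ih =>
      intro hi a ha
      obtain ⟨a', ha', hR⟩ := bwd i hi a ha
      obtain ⟨f, f0, f1, f2⟩ := ih (by omega) a' ha'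
      refine ⟨Function.update f (i + 1) a, Function.update_self _ a f, fun k hk => ?_, fun k hk => ?_⟩
      · rcases Nat.eq_or_lt_of_le hk with rfl | hk
        · simpa using ha
        · rw [Function.update_of_ne (by omega)]
          exact f1 k (by omega)
      · rcases Nat.eq_or_lt_of_le (Nat.le_of_lt_succ hk) with rfl | hk
        · rw [Function.update_self, Function.update_of_ne (by omega), f0]
          exact hR
        · rw [Function.update_of_ne (by omega), Function.update_of_ne (by omega)]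
          exact f2 k hk
  intro i hi a ha
  obtain ⟨f, f0, f1, f2⟩ := front N i (by omega) hi a ha
  obtain ⟨g, g0, g1, g2⟩ := back i hi a ha
  refine ⟨fun k => if k < i then g k else f k, by simpa using f0, fun k hk => ?_, fun k hk => ?_⟩
  · simp only
    split_ifs with h
    · exact g1 k (by omega)
    · exact f1 k (by omega) hk
  · simp only
    split_ifs with h1 h2 h2
    · exact g2 k h1
    · rw [show k + 1 = i by omega, f0, ← g0, show i = k + 1 by omega]
      exact g2 k h1
    · omega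
    · exact f2 k (by omega) hk

/-- There is a path along the rows through every candidate. -/
theorem Cand.hpath (c : Cand M C) {i j : ℕ} (hi : i < 2 * M) (hj : j < 2 * M) {T : Tile}
    (hT : T ∈ C i j) : ∃ b, HPath M C b ∧ b i j = T := by
  classical
  have row : ∀ y, y < 2 * M → ∀ x, x < 2 * M → ∀ a ∈ C x y, ∃ f : ℕ → Tile, f x = a ∧
      (∀ k, k < 2 * M → f k ∈ C k y) ∧ ∀ k, k + 1 < 2 * M → (f k).r = (f (k + 1)).l :=
    fun y hy => exists_chain (R := fun A B : Tile => A.r = B.l) (fun k hk => c.right k y hk hy)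
      (fun k hk => c.left k y hk hy)
  have rows : ∀ y, ∃ f : ℕ → Tile, (y = j → f i = T) ∧ (y < 2 * M →
      (∀ k, k < 2 * M → f k ∈ C k y) ∧ ∀ k, k + 1 < 2 * M → (f k).r = (f (k + 1)).l) := by
    intro y
    by_cases hy : y < 2 * M
    · by_cases hyj : y = j
      · subst hyj
        obtain ⟨f, f0, f1⟩ := row y hy i hi T hT
        exact ⟨f, fun _ => f0, fun _ => f1⟩
      · obtain ⟨a, ha⟩ := c.ne 0 y (by omega) hy
        obtain ⟨f, -, f1⟩ := row y hy 0 (by omega) a ha
        exact ⟨f, fun e => absurd e hyj, fun _ => f1⟩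
    · exact ⟨fun _ => T, fun _ => rfl, fun e => absurd e hy⟩
  choose f h0 h1 using rows
  exact ⟨fun x y => f y x, ⟨⟨⟨c.large,
    fun x y hx hy => c.geom x y hx hy _ ((h1 y hy).1 x hx),
    fun x y hx hy => c.eqs x y hx hy _ ((h1 y hy).1 x hx)⟩,
    fun x y hx hy => (h1 y hy).2 x hx⟩, fun x y hx hy => (h1 y hy).1 x hx⟩, h0 j rfl⟩

/-- There is a path along the columns through every candidate. -/
theorem Cand.vpath (c : Cand M C) {i j : ℕ} (hi : i < 2 * M) (hj : j < 2 * M) {T : Tile}
    (hT : T ∈ C i j) : ∃ b, VPath M C b ∧ b i j = T := by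
  classical
  have col : ∀ x, x < 2 * M → ∀ y, y < 2 * M → ∀ a ∈ C x y, ∃ f : ℕ → Tile, f y = a ∧
      (∀ k, k < 2 * M → f k ∈ C x k) ∧ ∀ k, k + 1 < 2 * M → (f k).u = (f (k + 1)).d :=
    fun x hx => exists_chain (R := fun A B : Tile => A.u = B.d) (fun k hk => c.up x k hx hk)
      (fun k hk => c.down x k hx hk)
  have cols : ∀ x, ∃ f : ℕ → Tile, (x = i → f j = T) ∧ (x < 2 * M →
      (∀ k, k < 2 * M → f k ∈ C x k) ∧ ∀ k, k + 1 < 2 * M → (f k).u = (f (k + 1)).d) := by
    intro x
    by_cases hx : x < 2 * M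
    · by_cases hxi : x = i
      · subst hxi
        obtain ⟨f, f0, f1⟩ := col x hx j hj T hT
        exact ⟨f, fun _ => f0, fun _ => f1⟩
      · obtain ⟨a, ha⟩ := c.ne x 0 hx (by omega)
        obtain ⟨f, -, f1⟩ := col x hx 0 (by omega) a ha
        exact ⟨f, fun e => absurd e hxi, fun _ => f1⟩
    · exact ⟨fun _ => T, fun _ => rfl, fun e => absurd e hx⟩
  choose f h0 h1 using cols
  exact ⟨f, ⟨⟨⟨c.large,
    fun x y hx hy => c.geom x y hx hy _ ((h1 x hx).1 y hy),
    fun x y hx hy => c.eqs x y hx hy _ ((h1 x hx).1 y hy)⟩,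
    fun x y hx hy => (h1 x hx).2 y hy⟩, fun x y hx hy => (h1 x hx).1 y hy⟩, h0 i rfl⟩

/-- The hubs are unambiguous: the markers of the values on the switch column, the markers of the
tag coordinates on their scanning columns, and the signals in their rows. -/
structure Hubs (M : ℕ) (C : ℕ → ℕ → Set Tile) (VS : Fin 4 → ℕ → Bool)
    (TS : Fin 2 → Fin 4 → ℕ → Bool) (sg : Sg → Bool) : Prop where
  value : ∀ v, v + K ≤ M → ∀ T ∈ C M (M + K - 1 + v), ∀ s, T.valMark s = VS s v
  coord : ∀ (k : Fin 2) c, c < 2 * K → ∀ T ∈ C (M - K + k) (M - K + c), ∀ s,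
    T.tagMark k k s = TS k s c
  signal : ∀ q, ∀ T ∈ C M (M - K + sRow q), T.hin K .P = sg q

end Vale.Agent.P196.Full.Tiles.Parse
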