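import Vale.Agent.P196.Full.Tiles.Parse.Rows

/-!
# P196: the vertical layers of one block of tiles satisfying the local equations
-/

namespace Vale.Agent.P196.Full.Tiles.Parse

variable {M : ℕ} {b : ℕ → ℕ → Tile} {i j : ℕ}

/-- A layer straight through the cells between two edges of a column is constant there. -/
theorem VBlk.vconst (B : VBlk M b) (hi : i < 2 * M) (h : VL) {j₀ j₁ : ℕ} (h01 : j₀ ≤ j₁)
    (h1 : j₁ ≤ 2 * M)
    (step : ∀ j, j₀ ≤ j → j < j₁ → (b i j).u.bit h = (b i j).d.bit h) :
    ev M b i j₁ h = ev M b i j₀ h := by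
  induction j₁, h01 using Nat.le_induction with
  | base => rfl
  | succ n hn ih =>
    rw [← ih (by omega) (fun j a c => step j a (by omega)), ← B.eu hi (by omega), ← B.ed (by omega)]
    exact step n hn (by omega)

/-- A cell outside the block is straight for the layers other than markers and scans of values. -/
theorem Cells.straight (B : Cells M b) (hi : i < 2 * M) (hj : j < 2 * M)
    (ho : ¬(M ≤ i + K ∧ i < M + K ∧ M ≤ j + K ∧ j < M + K)) (htr : ¬(i = j ∧ M + K ≤ i))
    {h : VL} (hS : ∀ k, h ≠ VL.S k) (hB : h = VL.Bus → j + 1 ≠ 2 * M) :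
    (b i j).u.bit h = (b i j).d.bit h := by
  by_cases hup : i = M ∧ M + K ≤ j
  · exact (B.upperEq hup.1 hup.2 hj).through h hS
      fun e ht => hB e ((B.cls hi hj).top.1 ht)
  · exact (B.plain hi hj ho hup htr).2 h hB

/-- Columns left of the block carry nothing. -/
theorem VBlk.col_left (B : VBlk M b) (hi : i + K < M) (hj : j ≤ 2 * M) (h : VL) :
    ev M b i j h = false := by
  have := B.large
  have := B.one_le_K
  have hi' : i < 2 * M := by omega
  obtain ⟨t, ht⟩ : ∃ t, t = 2 * M - 1 - i := ⟨_, rfl⟩
  have htl := (B.eqs i t hi' (by omega)).cornerTL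
    ((B.cls hi' (by omega)).tl.2 ⟨by omega, hi⟩) h
  have str : ∀ j, j < 2 * M → (h = VL.Bus → j + 1 ≠ 2 * M) →
      (b i j).u.bit h = (b i j).d.bit h := fun j hj hB =>
    (B.plain hi' hj (by omega) (by omega) (by omega)).2 h hB
  rcases Nat.le_total j t with hl | hl
  · rw [← B.vconst hi' h hl (by omega) (fun n _ g => str n (by omega) (fun _ => by omega)),
      ← B.ed (by omega)]
    exact htl.1
  rcases Nat.eq_or_lt_of_le hj with rfl | hl2
  · by_cases hb : h = VL.Bus
    · subst hb
      have htop := ((B.eqs i (2 * M - 1) hi' (by omega)).top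
        ((B.cls hi' (by omega)).top.2 (by omega))).1
      rwa [B.eu hi' (by omega), show 2 * M - 1 + 1 = 2 * M by omega] at htop
    · rw [B.vconst hi' h hl le_rfl (fun n _ g => str n (by omega) (fun e => absurd e hb)),
        ← B.ed (by omega)]
      exact htl.1
  · rw [B.vconst hi' h hl (by omega) (fun n _ g => str n (by omega) (fun _ => by omega)),
      ← B.ed (by omega)]
    exact htl.1

/-- Columns right of the block carry only markers. -/
theorem VBlk.col_right (B : VBlk M b) (hi : M + K ≤ i) (hi' : i < 2 * M) (hj : j ≤ 2 * M) {h : VL}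
    (hh : h ≠ VL.Mk) : ev M b i j h = false := by
  have := B.large
  have := B.one_le_K
  have tr := (B.cornerEq rfl hi hi').v_zero h hh
  have str : ∀ n, n < 2 * M → n ≠ i → (h = VL.Bus → n + 1 ≠ 2 * M) →
      (b i n).u.bit h = (b i n).d.bit h := fun n hn hne hB =>
    (B.plain hi' hn (by omega) (by omega) (by omega)).2 h hB
  rcases Nat.lt_or_ge i j with hl | hl
  · rcases Nat.eq_or_lt_of_le hj with rfl | hl2
    · by_cases hb : h = VL.Bus
      · subst hb
        have htop := ((B.eqs i (2 * M - 1) hi' (by omega)).top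
          ((B.cls hi' (by omega)).top.2 (by omega))).1
        rwa [B.eu hi' (by omega), show 2 * M - 1 + 1 = 2 * M by omega] at htop
      · rw [B.vconst hi' h (j₀ := i + 1) hl le_rfl
          (fun n g _ => str n (by omega) (by omega) (fun e => absurd e hb)), ← B.eu hi' hi']
        exact tr.2
    · rw [B.vconst hi' h (j₀ := i + 1) hl (by omega)
        (fun n g _ => str n (by omega) (by omega) (fun _ => by omega)), ← B.eu hi' hi']
      exact tr.2
  · rw [← B.vconst hi' h hl (by omega) (fun n _ g => str n (by omega) (by omega) (fun _ => by omega)),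
      ← B.ed hi']
    exact tr.1

/-- The markers of the bottom and top sides. -/
theorem VBlk.col_mk (B : VBlk M b) (hi : M + K ≤ i + 1) (hi' : i < 2 * M) (hj : j ≤ 2 * M) :
    ev M b i j .Mk = if j ≤ i then ev M b i 0 .Mk else ev M b i (2 * M) .Mk := by
  have := B.large
  have := B.one_le_K
  have hK := K_large
  have str : ∀ n, n < 2 * M → n ≠ i → (b i n).u.bit .Mk = (b i n).d.bit .Mk := fun n hn hne => by
    by_cases ho : M ≤ i + K ∧ i < M + K ∧ M ≤ n + K ∧ n < M + K
    · exact (B.blockV (a := i + K - M) (c := n + K - M) (by omega) (by omega) (by omega)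
        (by omega)).mk_through (by omega)
    · exact (B.plain hi' hn ho (by omega) (by omega)).2 _ (by simp)
  split_ifs with hl
  · exact B.vconst hi' _ (Nat.zero_le j) hj (fun n _ g => str n (by omega) (by omega))
  · exact (B.vconst hi' _ hj le_rfl (fun n g _ => str n (by omega) (by omega))).symm

/-- A column of the block is straight below and above it. -/
theorem VBlk.col_outside (B : VBlk M b) (hi : M ≤ i + K) (hi' : i < M + K) {h : VL}
    (hS : ∀ k, h ≠ VL.S k) :
    (∀ j, j + K ≤ M → ev M b i j h = ev M b i (M - K) h) ∧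
      ∀ j, M + K ≤ j → j ≤ 2 * M → (h = VL.Bus → j < 2 * M) →
        ev M b i j h = ev M b i (M + K) h := by
  have := B.large
  refine ⟨fun j hl => ?_, fun j hl hj hB => ?_⟩
  · exact (B.vconst (by omega) h (by omega) (by omega) fun n _ g => B.straight (by omega) (by omega)
      (by omega) (by omega) hS (fun _ => by omega)).symm
  · exact B.vconst (by omega) h hl hj fun n g g' => B.straight (by omega) (by omega)
      (by omega) (by omega) hS (fun e => by have := hB e; omega)

/-- Markers in the columns of the block. -/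
theorem VBlk.col_marks (B : VBlk M b) (hi : M ≤ i + K) (hi' : i + 1 < M + K) (hj : j ≤ 2 * M) :
    ev M b i j .Mk = false := by
  have := B.large
  have := B.one_le_K
  have blk : ∀ n, M ≤ n + K → n < M + K →
      (b i n).d.bit .Mk = false ∧ (b i n).u.bit .Mk = false := fun n g1 g2 =>
    (B.blockV (a := i + K - M) (c := n + K - M) (by omega) (by omega) (by omega)
      (by omega)).mk_zero (by omega)
  obtain ⟨o1, o2⟩ := B.col_outside hi (by omega) (h := .Mk) (by simp)
  rcases Nat.lt_or_ge j (M + K) with g1 | g1
  · rcases Nat.lt_or_ge M (j + K) with g2 | g2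
    · rw [← B.ed (by omega)]
      exact (blk j (by omega) g1).1
    · rw [o1 j g2, ← B.ed (by omega)]
      exact (blk (M - K) (by omega) (by omega)).1
  · rw [o2 j g1 hj (by simp), show M + K = M + K - 1 + 1 by omega, ← B.eu (by omega) (by omega)]
    exact (blk (M + K - 1) (by omega) (by omega)).2

/-- The shown bits and tag coordinates of the bottom and top sides. -/
theorem VBlk.col_shown (B : VBlk M b) (hi : M ≤ i + K) (hi' : i < M + K) (hj : j ≤ 2 * M)
    {h : VL} (hh : h = VL.C ∨ h = VL.A ∨ h = VL.B) :
    ev M b i j h = if j + 1 ≤ M + K then ev M b i 0 h else ev M b i (2 * M) h := by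
  have := B.large
  have := B.one_le_K
  have hS : ∀ k, h ≠ VL.S k := by rintro k rfl; simp at hh
  have hB : h ≠ VL.Bus := by rintro rfl; simp at hh
  have str : ∀ n, n < 2 * M → n + 1 ≠ M + K → (b i n).u.bit h = (b i n).d.bit h := fun n hn hne => by
    by_cases ho : M ≤ n + K ∧ n < M + K
    · exact (B.blockV (a := i + K - M) (c := n + K - M) (by omega) (by omega) (by omega)
        (by omega)).through (by omega) h hh
    · exact B.straight (by omega) hn (fun g => ho ⟨g.2.2.1, g.2.2.2⟩) (by omega) hS
        (fun e => absurd e hB)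
  split_ifs with hl
  · exact B.vconst (by omega) h (Nat.zero_le j) hj (fun n _ g => str n (by omega) (by omega))
  · exact (B.vconst (by omega) h hj le_rfl (fun n g _ => str n (by omega) (by omega))).symm

/-- An inner layer vanishes outside the block. -/
theorem VBlk.col_inner_out (B : VBlk M b) (hi : M ≤ i + K) (hi' : i < M + K) (hj : j ≤ 2 * M)
    {h : VL} (hh : h.IsInner) (ho : ¬(M < j + K ∧ j < M + K)) : ev M b i j h = false := by
  have := B.large
  have := B.one_le_K
  have hS : ∀ k, h ≠ VL.S k := by rintro k rfl; simp [VL.IsInner] at hh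
  have hB : h ≠ VL.Bus := by rintro rfl; simp [VL.IsInner] at hh
  obtain ⟨o1, o2⟩ := B.col_outside hi hi' hS
  have ha : i + K = M + (i + K - M) := by omega
  rcases Nat.lt_or_ge j (M + K) with g | g
  · rw [o1 j (by omega), ← B.ed (by omega)]
    exact (B.blockV (j := M - K) (c := 0) ha (by omega) (by omega) (by omega)).inner_bot rfl h hh
  · rw [o2 j g hj (fun e => absurd e hB), show M + K = M + K - 1 + 1 by omega,
      ← B.eu (by omega) (by omega)]
    exact (B.blockV (j := M + K - 1) (c := 2 * K - 1) ha (by omega) (by omega)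
      (by omega)).inner_top (by omega) h hh

/-- A layer straight inside the block. -/
theorem VBlk.col_through (B : VBlk M b) (hi : M ≤ i + K) (hi' : i < M + K) (hj : M < j + K)
    (hj' : j < M + K) {h : VL}
    (step : ∀ n c, n + K = M + c → c ≠ 0 → c + 1 < 2 * K → (b i n).u.bit h = (b i n).d.bit h) :
    ev M b i j h = ev M b i (M + K - 1) h := by
  have := B.large
  exact (B.vconst (by omega) h (by omega) (by omega) fun n g g' =>
    step n (n + K - M) (by omega) (by omega) (by omega)).symm

/-- The values shown at the top of the block. -/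
theorem VBlk.col_top (B : VBlk M b) (hi : M ≤ i + K) (hi' : i < M + K) (hj : M < j + K)
    (hj' : j < M + K) :
    ev M b i j .CT = ev M b i (2 * M) .C ∧ ev M b i j .AT = ev M b i (2 * M) .A ∧
      ev M b i j .BT = ev M b i (2 * M) .B := by
  have := B.large
  have := B.one_le_K
  have ha : i + K = M + (i + K - M) := by omega
  have key : ∀ h h' : VL, (h = VL.CT ∨ h = VL.AT ∨ h = VL.BT) → (h' = VL.C ∨ h' = VL.A ∨ h' = VL.B) →
      (b i (M + K - 1)).d.bit h = (b i (M + K - 1)).u.bit h' →
      ev M b i j h = ev M b i (2 * M) h' := by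
    intro h h' hh hh' e
    rw [B.col_through hi hi' hj hj' (fun n c hc c0 c1 =>
      (B.blockV ha (by omega) hc (by omega)).top_through c0 (by omega) h hh),
      ← B.ed (by omega), e, B.eu (by omega) (by omega), B.col_shown hi hi' (by omega) hh',
      if_neg (by omega)]
  have t := (B.blockV (j := M + K - 1) (c := 2 * K - 1) ha (by omega) (by omega)
    (by omega)).top_values (by omega)
  exact ⟨key _ _ (by simp) (by simp) t.1, key _ _ (by simp) (by simp) t.2.1,
    key _ _ (by simp) (by simp) t.2.2⟩

/-- An inner layer at a block cell. -/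
theorem VBlk.vin_eq (B : VBlk M b) {a c : ℕ} (ha : i + K = M + a) (ha' : a < 2 * K)
    (hc : j + K = M + c) (hc' : c < 2 * K) (h : VL) :
    (b i j).vin c h = ev M b i (M - K + max c 1) h := by
  have := B.large
  unfold Tile.vin
  split_ifs with h0
  · rw [B.eu (by omega) (by omega), show M - K + max c 1 = j + 1 by omega]
  · rw [B.ed (by omega), show M - K + max c 1 = j by omega]

end Vale.Agent.P196.Full.Tiles.Parse
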