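import Vale.Agent.P196.Full.Tiles.Parse.Cand

/-!
# P196: what the hubs force on every path
-/

namespace Vale.Agent.P196.Full.Tiles.Parse

/-- The horizontal layer showing a tag coordinate. -/
def cH (k : Fin 2) : HL := if k = 0 then .A else .B

/-- The vertical layer showing a tag coordinate. -/
def cV (k : Fin 2) : VL := if k = 0 then .A else .B

/-- The inner layers of the tag coordinates of the right, bottom and top sides. -/
def cR (k : Fin 2) : Fin 3 → HL :=
  if k = 0 then ![.AR, .AD, .AU] else ![.BR, .BD, .BU]

/-- The inner vertical layer of the tag coordinate of the top side. -/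
def cT (k : Fin 2) : VL := if k = 0 then .AT else .BT

theorem cR_inner (k : Fin 2) (i : Fin 3) : (cR k i).IsInner := by
  fin_cases k <;> fin_cases i <;> simp [cR, HL.IsInner]

/-- The bit shown for a side at a position of the table. -/
noncomputable def showS (sg : Sg → Bool) (s : Fin 4) (c : ℕ) : Bool :=
  open Classical in decide (∃ t k, c = cPos t k ∧ sg (.side s t k) = true)

theorem showS_cPos (sg : Sg → Bool) (s : Fin 4) (t : DI) (k : Fin 2) :
    showS sg s (cPos t k) = sg (.side s t k) := by
  rw [Bool.eq_iff_iff]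
  simp only [showS, decide_eq_true_eq]
  refine ⟨fun ⟨t', k', e, h⟩ => ?_, fun h => ⟨t, k, rfl, h⟩⟩
  obtain ⟨rfl, rfl⟩ := cPos_inj e
  exact h

theorem showS_eq_false (sg : Sg → Bool) (s : Fin 4) {c : ℕ} (hc : ∀ t k, c ≠ cPos t k) :
    showS sg s c = false := by
  simp only [showS, decide_eq_false_iff_not]
  exact fun ⟨t, k, e, _⟩ => hc t k e

theorem sRow_lt (q : Sg) : sRow q < 2 * K := by
  have := sRow_bounds q
  have := K_large
  omega

theorem cPos_lt (t : DI) (k : Fin 2) : cPos t k < 2 * K := by
  have := cPos_bounds t k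
  have := K_large
  omega

theorem sCol_lt (q : Sg) (h k : Fin 2) : sCol q h k < 2 * K := by
  have := sCol_bounds q h k
  omega

variable {M : ℕ} {C : ℕ → ℕ → Set Tile} {b : ℕ → ℕ → Tile} {VS : Fin 4 → ℕ → Bool}
  {TS : Fin 2 → Fin 4 → ℕ → Bool} {sg : Sg → Bool}

/-- Markers of the values along a row. -/
theorem hrow_val (H : Hubs M C VS TS sg) (P : HPath M C b) {v i j : ℕ} (hv : v + K ≤ M)
    (hj : j = M + K - 1 + v) (hi : i ≤ 2 * M) :
    (eh M b i j .Mk = if i ≤ M then VS 0 v else VS 1 v) ∧
      eh M b i j .MD = (decide (M < i ∧ i ≤ j) && VS 2 v) ∧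
      eh M b i j .MU = (decide (M < i ∧ i ≤ j) && VS 3 v) := by
  have := P.large
  have := P.one_le_K
  have hK := K_large
  have hj' : j < 2 * M := by omega
  have hm := H.value v hv (b M j) (hj ▸ P.chosen M j (by omega) hj')
  have e0 := hm 0
  have e1 := hm 1
  have e2 := hm 2
  have e3 := hm 3
  simp only [Tile.valMark, Matrix.cons_val_zero, Matrix.cons_val_one, Matrix.cons_val_two,
    Matrix.cons_val_three, Matrix.head_cons, Matrix.tail_cons] at e0 e1 e2 e3
  rw [P.el (by omega), P.row_mk (by omega) (by omega) hj', if_pos le_rfl] at e0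
  rw [P.er (by omega) hj', P.row_mk (by omega) (by omega) hj', if_neg (by omega)] at e1
  rw [P.er (by omega) hj', (P.row_md (by omega) (by omega) hj').1, decide_eq_true (by omega),
    Bool.true_and] at e2
  rw [P.er (by omega) hj', (P.row_md (by omega) (by omega) hj').2, decide_eq_true (by omega),
    Bool.true_and] at e3
  refine ⟨?_, ?_, ?_⟩
  · rw [P.row_mk hi (by omega) hj', e0, e1]
  · rw [(P.row_md hi (by omega) hj').1, e2]
  · rw [(P.row_md hi (by omega) hj').2, e3]

/-- Markers of the values along a column. -/
theorem vcol_val (c : Cand M C) (H : Hubs M C VS TS sg) (P : VPath M C b) {v i j : ℕ}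
    (hv : v + K ≤ M) (hi : i = M + K - 1 + v) (hj : j ≤ 2 * M) :
    ev M b i j .Mk = if j ≤ i then VS 2 v else VS 3 v := by
  have := P.large
  have := P.one_le_K
  have hK := K_large
  have hi' : i < 2 * M := by omega
  obtain ⟨r, hr, hri⟩ := c.hpath hi' hi' (P.chosen i i hi' hi')
  obtain ⟨-, h2, h3⟩ := hrow_val H hr hv hi (i := i) (by omega)
  rw [(hr.row_md (i := i) (by omega) (by omega) hi').1, decide_eq_true (by omega), Bool.true_and,
    Bool.true_and, hri, P.ed hi', P.col_mk (by omega) hi' (by omega), if_pos le_rfl] at h2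
  rw [(hr.row_md (i := i) (by omega) (by omega) hi').2, decide_eq_true (by omega), Bool.true_and,
    Bool.true_and, hri, P.eu hi' hi', P.col_mk (by omega) hi' (by omega), if_neg (by omega)] at h3
  rw [P.col_mk (by omega) hi' hj, h2, h3]

/-- Tag coordinates along a row. -/
theorem hrow_coord (H : Hubs M C VS TS sg) (P : HPath M C b) {k : Fin 2} {c i j : ℕ}
    (hc : c < 2 * K) (hj : j + K = M + c) (hi : i ≤ 2 * M) :
    (eh M b i j (cH k) = if i + 1 ≤ M + K then TS k 0 c else TS k 1 c) ∧
      eh M b (M + K - 1) j (cR k 0) = TS k 1 c ∧ eh M b (M + K - 1) j (cR k 1) = TS k 2 c ∧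
      eh M b (M + K - 1) j (cR k 2) = TS k 3 c := by
  have := P.large
  have hK := K_large
  have hk := k.isLt
  have hh : cH k = HL.C ∨ cH k = HL.A ∨ cH k = HL.B := by
    fin_cases k <;> simp [cH]
  have hmem : b (M - K + k) j ∈ C (M - K + k) (M - K + c) := by
    have := P.chosen (M - K + k) j (by omega) (by omega)
    rwa [show M - K + c = j by omega]
  have hm := H.coord k c hc _ hmem
  have key : ∀ s, (![(b (M - K + k) j).l.bit (cH k), (b (M - K + k) j).hin k (cR k 0),
      (b (M - K + k) j).hin k (cR k 1), (b (M - K + k) j).hin k (cR k 2)] : Fin 4 → Bool) s =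
      TS k s c := fun s => by
    rw [← hm s]
    fin_cases k <;> simp [Tile.tagMark, cH, cR]
  have e0 : (b (M - K + k) j).l.bit (cH k) = TS k 0 c := key 0
  have e1 : (b (M - K + k) j).hin k (cR k 0) = TS k 1 c := key 1
  have e2 : (b (M - K + k) j).hin k (cR k 1) = TS k 2 c := key 2
  have e3 : (b (M - K + k) j).hin k (cR k 2) = TS k 3 c := key 3
  rw [P.el (by omega), P.row_shown (by omega) (by omega) (by omega) hh, if_pos (by omega)] at e0
  rw [P.hin_eq (by omega) (by omega) hj hc (cR_inner k 0)] at e1
  rw [P.hin_eq (by omega) (by omega) hj hc (cR_inner k 1)] at e2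
  rw [P.hin_eq (by omega) (by omega) hj hc (cR_inner k 2)] at e3
  refine ⟨?_, e1, e2, e3⟩
  obtain ⟨g1, g2, -⟩ := (P.blockH (i := M + K - 1) (j := j) (a := 2 * K - 1) (by omega) (by omega)
    hj hc).right_values (by omega)
  have e4 : eh M b (M + K - 1) j (cR k 0) = eh M b (2 * M) j (cH k) := by
    rw [P.el (by omega)] at g1 g2
    rw [P.er (by omega) (by omega)] at g1 g2
    fin_cases k
    · simp only [cR, cH] at hh ⊢
      simp only [Fin.zero_eta, if_true, Matrix.cons_val_zero]
      rw [g1, P.row_shown (by omega) (by omega) (by omega) (by simp), if_neg (by omega)]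
    · simp only [cR, cH] at hh ⊢
      simp only [Fin.mk_one, one_ne_zero, if_false, Matrix.cons_val_zero]
      rw [g2, P.row_shown (by omega) (by omega) (by omega) (by simp), if_neg (by omega)]
  rw [P.row_shown hi (by omega) (by omega) hh, e0, ← e4, e1]

/-- Tag coordinates along a column. -/
theorem vcol_coord (c : Cand M C) (H : Hubs M C VS TS sg) (P : VPath M C b) {k : Fin 2} {x i j : ℕ}
    (hx : x < 2 * K) (hi : i + K = M + x) (hj : j ≤ 2 * M) :
    ev M b i j (cV k) = if j + 1 ≤ M + K then TS k 2 x else TS k 3 x := by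
  have := P.large
  have hK := K_large
  obtain ⟨r, hr, hri⟩ := c.hpath (show i < 2 * M by omega) (show i < 2 * M by omega)
    (P.chosen i i (by omega) (by omega))
  obtain ⟨-, -, h2, h3⟩ := hrow_coord H hr (k := k) hx hi (i := i) (by omega)
  rw [← hr.hin_eq hi hx hi hx (cR_inner k 1), hri] at h2
  rw [← hr.hin_eq hi hx hi hx (cR_inner k 2), hri] at h3
  obtain ⟨d1, d2, d3, d4⟩ := (P.blockH (i := i) (j := i) hi hx hi hx).diag rfl
  rw [P.ed (by omega)] at d1 d2
  rw [P.vin_eq hi hx hi hx] at d3 d4
  obtain ⟨-, t2, t3⟩ := P.col_top (i := i) (j := M - K + max x 1) (by omega) (by omega) (by omega)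
    (by omega)
  have hh : cV k = VL.C ∨ cV k = VL.A ∨ cV k = VL.B := by
    fin_cases k <;> simp [cV]
  have low : ev M b i 0 (cV k) = TS k 2 x := by
    have e := P.col_shown (i := i) (j := i) (by omega) (by omega) (by omega) hh
    rw [if_pos (by omega)] at e
    rw [← e, ← h2]
    fin_cases k
    · simpa [cV, cR] using d1.symm
    · simpa [cV, cR] using d2.symm
  have high : ev M b i (2 * M) (cV k) = TS k 3 x := by
    rw [← h3]
    fin_cases k
    · simpa [cV, cR, t2] using d3.symm
    · simpa [cV, cR, t3] using d4.symm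
  rw [P.col_shown (by omega) (by omega) hj hh, low, high]

/-- Every cell of a signal row reads the signal. -/
theorem hrow_signal (H : Hubs M C VS TS sg) (P : HPath M C b) (q : Sg) {j : ℕ}
    (hj : j + K = M + sRow q) : eh M b (M + K - 1) j .P = sg q := by
  have := P.large
  have hq := sRow_lt q
  have hmem : b M j ∈ C M (M - K + sRow q) := by
    have := P.chosen M j (by omega) (by omega)
    rwa [show M - K + sRow q = j by omega]
  rw [← H.signal q _ hmem, P.hin_eq (a := K) (by omega) (by omega) hj hq (h := HL.P) trivial]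

/-- A block cell in a signal row reads the signal. -/
theorem hin_signal (c : Cand M C) (H : Hubs M C VS TS sg) (q : Sg) {a i j : ℕ}
    (ha : i + K = M + a) (ha' : a < 2 * K) (hj : j + K = M + sRow q) {T : Tile} (hT : T ∈ C i j) :
    T.hin a .P = sg q := by
  have := c.large
  have hq := sRow_lt q
  obtain ⟨r, hr, hri⟩ := c.hpath (show i < 2 * M by omega) (show j < 2 * M by omega) hT
  rw [← hri, hr.hin_eq ha ha' hj hq (h := HL.P) trivial, hrow_signal H hr q hj]

/-- A column carrying a signal. -/
theorem vcol_bus (c : Cand M C) (H : Hubs M C VS TS sg) (P : VPath M C b) (q : Sg) {h k : Fin 2}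
    {i j : ℕ} (hi : i + K = M + sCol q h k) (hj : M < j + K) (hj' : j < 2 * M) :
    ev M b i j .Bus = sg q := by
  have := P.large
  have hq := sRow_lt q
  have hc := sCol_lt q h k
  have hb := sRow_bounds q
  have port := (P.blockH (i := i) (j := M - K + sRow q) hi hc (by omega) hq).port_bus q h k rfl rfl
  rw [P.vin_eq (c := sRow q) hi hc (by omega) hq,
    hin_signal c H q hi hc (by omega) (P.chosen i _ (by omega) (by omega))] at port
  rw [← port]
  have step : ∀ n, M < n + K → n + 1 < 2 * M → (b i n).u.bit .Bus = (b i n).d.bit .Bus := by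
    intro n h1 h2
    by_cases hn : n < M + K
    · exact (P.blockV (j := n) (c := n + K - M) hi hc (by omega) (by omega)).bus_through (by omega)
    · exact P.straight (by omega) (by omega) (by omega) (by omega) (by simp) (fun _ => by omega)
  rcases Nat.le_total j (M - K + max (sRow q) 1) with hl | hl
  · exact (P.vconst (by omega) _ hl (by omega) fun n g g' => step n (by omega) (by omega)).symm
  · exact P.vconst (by omega) _ hl (by omega) fun n g g' => step n (by omega) (by omega)

/-- The Bus layer in a column of the block. -/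
theorem vcol_bus_all (c : Cand M C) (H : Hubs M C VS TS sg) (P : VPath M C b) {a i j : ℕ}
    (hi : i + K = M + a) (ha : a < 2 * K) (hj : j ≤ 2 * M) :
    ev M b i j .Bus = (decide (M < j + K ∧ j < 2 * M) &&
      (open Classical in decide (∃ q h k, a = sCol q h k ∧ sg q = true))) := by
  classical
  have := P.large
  have := P.one_le_K
  have hi' : i < 2 * M := by omega
  by_cases hin : M < j + K ∧ j < 2 * M
  · rw [decide_eq_true hin, Bool.true_and]
    by_cases hs : ∃ q h k, a = sCol q h k
    · obtain ⟨q, h, k, rfl⟩ := hs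
      rw [vcol_bus c H P q hi hin.1 hin.2, Bool.eq_iff_iff, decide_eq_true_eq]
      exact ⟨fun e => ⟨q, h, k, rfl, e⟩, fun ⟨q', h', k', e, e'⟩ => sCol_inj e ▸ e'⟩
    · push Not at hs
      rw [decide_eq_false (fun ⟨q, h, k, e, _⟩ => hs q h k e)]
      obtain ⟨-, o2⟩ := P.col_outside (i := i) (h := .Bus) (by omega) (by omega) (by simp)
      rcases Nat.lt_or_ge j (M + K) with g | g
      · rw [← P.ed (by omega)]
        exact ((P.blockV (j := j) (c := j + K - M) hi ha (by omega) (by omega)).bus_zero hs).1
      · rw [o2 j g (by omega) (fun _ => hin.2), show M + K = M + K - 1 + 1 by omega,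
          ← P.eu hi' (by omega)]
        exact ((P.blockV (j := M + K - 1) (c := 2 * K - 1) hi ha (by omega) (by omega)).bus_zero hs).2
  · rw [decide_eq_false hin, Bool.false_and]
    rcases Nat.lt_or_ge j (2 * M) with g | g
    · rw [(P.col_outside (by omega) (by omega) (by simp)).1 j (by omega), ← P.ed (by omega)]
      exact (P.blockV (j := M - K) (c := 0) hi ha (by omega) (by omega)).bus_bot rfl
    · have htop := ((P.eqs i (2 * M - 1) hi' (by omega)).top
        ((P.cls hi' (by omega)).top.2 (by omega))).1
      rw [P.eu hi' (by omega), show 2 * M - 1 + 1 = j by omega] at htop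
      exact htop

/-- The bit shown on the right of a row. -/
theorem hrow_P_shown (c : Cand M C) (H : Hubs M C VS TS sg) (P : HPath M C b) {x j : ℕ}
    (hx : x < 2 * K) (hj : j + K = M + x) (hq : ∀ q, x ≠ sRow q) :
    eh M b (M + K - 1) j .P = showS sg 1 x := by
  have := P.large
  have := P.one_le_K
  by_cases hp : ∃ t k, x = cPos t k
  · obtain ⟨t, k, rfl⟩ := hp
    rw [showS_cPos]
    have hs := sCol_lt (.side 1 t k) 0 0
    obtain ⟨i, hi⟩ : ∃ i, i = M - K + sCol (.side 1 t k) 0 0 := ⟨_, rfl⟩
    obtain ⟨p, hp, hpi⟩ := c.vpath (show i < 2 * M by omega) (show j < 2 * M by omega)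
      (P.chosen i j (by omega) (by omega))
    have port := (P.blockV (i := i) (j := j) (a := sCol (.side 1 t k) 0 0) (by omega) hs hj
      hx).bus_right t k 0 0 rfl rfl
    rw [P.hin_eq (by omega) hs hj hx (h := HL.P) trivial] at port
    have hb := cPos_bounds t k
    rw [← port, ← hpi, hp.vin_eq (a := sCol (.side 1 t k) 0 0) (by omega) hs hj hx,
      vcol_bus c H hp (.side 1 t k) (h := 0) (k := 0) (by omega) (by omega) (by omega)]
  · push Not at hp
    rw [showS_eq_false _ _ hp]
    have g := (P.blockH (i := M + K - 1) (j := j) (a := 2 * K - 1) (by omega) (by omega) hj hx)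
    rw [← P.el (by omega), (g.right_values (by omega)).2.2 hq]
    exact (g.c_zero hp).2

/-- The bits shown in a row. -/
theorem hrow_shown (c : Cand M C) (H : Hubs M C VS TS sg) (P : HPath M C b) {x i j : ℕ}
    (hx : x < 2 * K) (hj : j + K = M + x) (hi : i ≤ 2 * M) :
    eh M b i j .C = if i + 1 ≤ M + K then showS sg 0 x else showS sg 1 x := by
  have := P.large
  have := P.one_le_K
  have right : eh M b (2 * M) j .C = showS sg 1 x := by
    have g := (P.blockH (i := M + K - 1) (j := j) (a := 2 * K - 1) (by omega) (by omega) hj hx)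
    have e : eh M b (2 * M) j .C = (b (M + K - 1) j).r.bit .C := by
      rw [P.er (by omega) (by omega),
        P.row_shown (i := M + K - 1 + 1) (by omega) (by omega) (by omega) (by simp), if_neg (by omega)]
    by_cases hq : ∀ q, x ≠ sRow q
    · rw [e, ← (g.right_values (by omega)).2.2 hq, P.el (by omega), hrow_P_shown c H P hx hj hq]
    · push Not at hq
      obtain ⟨q, hq'⟩ := hq
      have hn : ∀ t k, x ≠ cPos t k := fun t k e' => cPos_ne_sRow t k q (e'.symm.trans hq')
      rw [showS_eq_false _ _ hn]
      exact e.trans (g.c_zero hn).2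
  have left : eh M b 0 j .C = showS sg 0 x := by
    by_cases hp : ∃ t k, x = cPos t k
    · obtain ⟨t, k, rfl⟩ := hp
      rw [showS_cPos]
      have hs := sCol_lt (.side 0 t k) 0 0
      obtain ⟨a, ha⟩ : ∃ a, a = M - K + sCol (.side 0 t k) 0 0 := ⟨_, rfl⟩
      obtain ⟨p, hp, hpi⟩ := c.vpath (show a < 2 * M by omega) (show j < 2 * M by omega)
        (P.chosen a j (by omega) (by omega))
      have port := (P.blockV (i := a) (j := j) (a := sCol (.side 0 t k) 0 0) (by omega) hs hj
        hx).bus_left t k 0 0 rfl rfl
      rw [P.el (by omega), P.row_shown (by omega) (by omega) (by omega) (by simp),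
        if_pos (by omega)] at port
      have hb := cPos_bounds t k
      rw [← port, ← hpi, hp.vin_eq (a := sCol (.side 0 t k) 0 0) (by omega) hs hj hx,
        vcol_bus c H hp (.side 0 t k) (h := 0) (k := 0) (by omega) (by omega) (by omega)]
    · push Not at hp
      have g := ((P.blockH (i := M - K) (j := j) (a := 0) (by omega) (by omega) hj hx).c_zero hp).1
      rw [P.el (by omega), P.row_shown (by omega) (by omega) (by omega) (by simp),
        if_pos (by omega)] at g
      rw [showS_eq_false _ _ hp, g]
  rw [P.row_shown hi (by omega) (by omega) (by simp), left, right]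

/-- The bits shown in a column. -/
theorem vcol_shown (c : Cand M C) (H : Hubs M C VS TS sg) (P : VPath M C b) {x i j : ℕ}
    (hx : x < 2 * K) (hi : i + K = M + x) (hj : j ≤ 2 * M) :
    ev M b i j .C = if j + 1 ≤ M + K then showS sg 2 x else showS sg 3 x := by
  have := P.large
  have := P.one_le_K
  have e : ev M b i 0 .C = showS sg 2 x ∧ ev M b i (2 * M) .C = showS sg 3 x := by
    by_cases hp : ∃ t k, x = cPos t k
    · obtain ⟨t, k, rfl⟩ := hp
      have h2 := sRow_lt (.side 2 t k)
      have h3 := sRow_lt (.side 3 t k)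
      have b3 := sRow_bounds (.side 3 t k)
      constructor
      · obtain ⟨y, hy⟩ : ∃ y, y = M - K + sRow (.side 2 t k) := ⟨_, rfl⟩
        have port := (P.blockH (i := i) (j := y) hi hx (c := sRow (.side 2 t k)) (by omega)
          h2).port_bottom t k rfl rfl
        rw [hin_signal c H (.side 2 t k) hi hx (by omega) (P.chosen i y (by omega) (by omega)),
          P.ed (by omega), P.col_shown (by omega) (by omega) (by omega) (by simp),
          if_pos (by omega)] at port
        rw [showS_cPos, port]
      · obtain ⟨y, hy⟩ : ∃ y, y = M - K + sRow (.side 3 t k) := ⟨_, rfl⟩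
        have port := (P.blockH (i := i) (j := y) hi hx (c := sRow (.side 3 t k)) (by omega)
          h3).port_top t k rfl rfl
        rw [hin_signal c H (.side 3 t k) hi hx (by omega) (P.chosen i y (by omega) (by omega)),
          P.vin_eq hi hx (by omega) h3,
          (P.col_top (i := i) (j := M - K + max (sRow (.side 3 t k)) 1) (by omega) (by omega)
            (by omega) (by omega)).1] at port
        rw [showS_cPos, port]
    · push Not at hp
      rw [showS_eq_false _ _ hp, showS_eq_false _ _ hp]
      constructor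
      · have g := ((P.blockV (i := i) (j := M - K) (c := 0) hi hx (by omega) (by omega)).c_zero hp).1
        rwa [P.ed (by omega), P.col_shown (by omega) (by omega) (by omega) (by simp),
          if_pos (by omega)] at g
      · have g := ((P.blockV (i := i) (j := M + K - 1) (c := 2 * K - 1) hi hx (by omega)
          (by omega)).c_zero hp).2
        rwa [P.eu (by omega) (by omega), P.col_shown (by omega) (by omega) (by omega) (by simp),
          if_neg (by omega)] at g
  rw [P.col_shown (by omega) (by omega) hj (by simp), e.1, e.2]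

end Vale.Agent.P196.Full.Tiles.Parse
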