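import Vale.Agent.P196.Full.Tiles.Parse.Parent

/-!
# P196: every candidate of every cell is the child of the decoded parent
-/

namespace Vale.Agent.P196.Full.Tiles.Parse

attribute [local irreducible] K M0 lvl sRow cPos sCol usable patOf portIdx snap

variable {M : ℕ} {C : ℕ → ℕ → Set Tile} {b : ℕ → ℕ → Tile} {VS : Fin 4 → ℕ → Bool}
  {TS : Fin 2 → Fin 4 → ℕ → Bool} {sg : Sg → Bool} {T : Tile}

theorem Parent.shown_eq (p : Parent M VS TS sg T) (s : Fin 4) (x : ℕ) :
    shown T s x = showS sg s x := by
  rw [Bool.eq_iff_iff]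
  simp only [shown, showS, decide_eq_true_eq]
  refine exists_congr fun t => exists_congr fun k => and_congr_right fun _ => ?_
  rw [p.side s t k]

theorem Parent.val_eq (p : Parent M VS TS sg T) (s : Fin 4) {x : ℕ} (hx : x + K ≤ M) :
    VS s x = decide ((T.gs s).val = some x) :=
  p.val.mark s x (by omega)

theorem Parent.coord_eq (p : Parent M VS TS sg T) (k : Fin 2) (s : Fin 4) {x : ℕ}
    (hx : x < 2 * K) :
    TS k s x = decide ((if k = 0 then (T.gs s).tagA else (T.gs s).tagB) = some x) := by
  rw [(p.coord k).mark s x (by omega), decide_eq_decide]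
  exact coord_eq_some hx

open Classical in
/-- The rows of the operation. -/
theorem hrow_op (c : Cand M C) (H : Hubs M C VS TS sg) (p : Parent M VS TS sg T) (R : HPath M C b)
    {x j : ℕ} (hx : x < 2 * K) (hj : j + K = M + x) (k : Fin 64) :
    eh M b (M + K - 1) j (.O k) =
      decide (∃ q, T.tagCell = some q ∧ q.2 = x ∧ opBit forb q.1 q.2 k = true) := by
  have := R.large
  have := R.one_le_K
  cases hB : TS 1 0 x with
  | false =>
    obtain ⟨i, hi⟩ : ∃ i, i = M - K := ⟨_, rfl⟩
    have hl : (b i j).l.bit .B = false := by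
      rw [R.el (by omega)]
      have := (hrow_coord H R (k := 1) hx hj (i := i) (by omega)).1
      rw [if_pos (by omega), hB] at this
      exact this
    have g := (R.blockH (i := i) (j := j) (a := 0) (by omega) (by omega) hj hx).lookup_none hl k
    rw [R.hin_eq (by omega) (by omega) hj hx (h := HL.O k) trivial] at g
    rw [g, eq_comm, decide_eq_false_iff_not]
    rintro ⟨⟨a, y⟩, hc, rfl, -⟩
    obtain ⟨-, -, h1, -⟩ := p.cell a y hc
    have := (p.coord 1).mark 0 y (by omega)
    rw [hB] at this
    simp [show (T.gs 0).coord 1 = some y from h1] at this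
  | true =>
    have hx1 : (T.gs 0).coord 1 = some x := by
      have := (p.coord 1).mark 0 x (by omega)
      rw [hB] at this
      simpa using this.symm
    cases hcell : T.tagCell with
    | none =>
      rw [decide_eq_false (by simp), Bool.eq_false_iff]
      intro ho
      obtain ⟨i, hi⟩ : ∃ i, i = M + K - 1 := ⟨_, rfl⟩
      have := op_le_signal c H k (i := i) (a := 2 * K - 1) (by omega) (by omega) hj hx
        (R.chosen i j (by omega) (by omega))
        (by rw [R.hin_eq (by omega) (by omega) hj hx (h := HL.O k) trivial]; exact ho)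
      rw [p.cell_none hcell k] at this
      exact Bool.noConfusion this
    | some q =>
      obtain ⟨a, y⟩ := q
      obtain ⟨ha, hy, h1, h2⟩ := p.cell a y hcell
      obtain rfl : y = x := Option.some.inj (h1.symm.trans hx1)
      obtain ⟨i, hi⟩ : ∃ i, i = M - K + a := ⟨_, rfl⟩
      obtain ⟨v, P, hv⟩ := c.vpath (show i < 2 * M by omega) (show j < 2 * M by omega)
        (R.chosen i j (by omega) (by omega))
      have hl : (b i j).l.bit .B = true := by
        rw [R.el (by omega)]
        have := (hrow_coord H R (k := 1) hx hj (i := i) (by omega)).1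
        rw [if_pos (by omega), hB] at this
        exact this
      have hd : (b i j).d.bit .A = true := by
        rw [← hv, P.ed (by omega)]
        have := vcol_coord c H P (k := 0) (i := i) ha (by omega) (j := j) (by omega)
        rw [if_pos (by omega), (p.coord 0).mark 2 a (by omega),
          decide_eq_true (show (T.gs 2).coord 0 = some a from h2)] at this
        exact this
      have g := (R.blockH (i := i) (j := j) (a := a) (by omega) ha hj hx).lookup hl hd k
      rw [R.hin_eq (by omega) ha hj hx (h := HL.O k) trivial] at g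
      rw [g, Bool.eq_iff_iff, decide_eq_true_eq]
      exact ⟨fun h => ⟨(a, y), rfl, rfl, h⟩, fun ⟨q, hq, _, h⟩ => by
        obtain rfl := Option.some.inj hq
        exact h⟩

open Classical in
/-- The column collecting the operation. -/
theorem vcol_op (c : Cand M C) (H : Hubs M C VS TS sg) (p : Parent M VS TS sg T) (P : VPath M C b)
    {i : ℕ} (hi : i + 1 = M + K) (k : Fin 64) :
    (∀ e, 1 ≤ e → e ≤ 2 * K → ev M b i (M - K + e) (.O k) =
      decide (∃ q, T.tagCell = some q ∧ e ≤ q.2 ∧ opBit forb q.1 q.2 k = true)) ∧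
    sg (.op k) = decide (∃ q, T.tagCell = some q ∧ opBit forb q.1 q.2 k = true) := by
  have := P.large
  have := P.one_le_K
  have ha : i + K = M + (2 * K - 1) := by omega
  have row : ∀ e, e < 2 * K → (b i (M - K + e)).hin (2 * K - 1) (.O k) =
      decide (∃ q, T.tagCell = some q ∧ q.2 = e ∧ opBit forb q.1 q.2 k = true) := by
    intro e he
    obtain ⟨r, R, hr⟩ := c.hpath (show i < 2 * M by omega) (show M - K + e < 2 * M by omega)
      (P.chosen i _ (by omega) (by omega))
    rw [← hr, R.hin_eq ha (by omega) (c := e) (by omega) he (h := HL.O k) trivial]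
    exact hrow_op c H p R he (by omega) k
  have col : ∀ n e, 1 ≤ e → e + n = 2 * K → ev M b i (M - K + e) (.O k) =
      decide (∃ q, T.tagCell = some q ∧ e ≤ q.2 ∧ opBit forb q.1 q.2 k = true) := by
    intro n
    induction n with
    | zero =>
      intro e _ he
      rw [P.col_inner_out (i := i) (j := M - K + e) (by omega) (by omega) (by omega) (h := VL.O k) trivial (by omega), eq_comm,
        decide_eq_false_iff_not]
      rintro ⟨⟨a, y⟩, hc, hle, -⟩
      have := (p.cell a y hc).2.1
      omega
    | succ n ih =>
      intro e he1 he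
      rw [← P.ed (by omega), (P.blockV (j := M - K + e) (c := e) ha (by omega) (by omega)
        (by omega)).op_step (by omega) (by omega) k, P.eu (by omega) (by omega), row e (by omega),
        show M - K + e + 1 = M - K + (e + 1) by omega, ih (e + 1) (by omega) (by omega),
        Bool.eq_iff_iff]
      simp only [Bool.or_eq_true, decide_eq_true_eq]
      constructor
      · rintro (⟨q, h1, h2, h3⟩ | ⟨q, h1, h2, h3⟩)
        · exact ⟨q, h1, by omega, h3⟩
        · exact ⟨q, h1, by omega, h3⟩
      · rintro ⟨q, h1, h2, h3⟩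
        rcases Nat.eq_or_lt_of_le h2 with h | h
        · exact Or.inr ⟨q, h1, h.symm, h3⟩
        · exact Or.inl ⟨q, h1, h, h3⟩
  refine ⟨fun e h1 h2 => col (2 * K - e) e h1 (by omega), ?_⟩
  rw [op_signal c H P k, show M + K - 1 = i by omega,
    (P.blockV (j := M - K) (c := 0) ha (by omega) (by omega) (by omega)).op_total (by omega) rfl k,
    P.eu (by omega) (by omega), col (2 * K - 1) 1 le_rfl (by omega), Bool.eq_iff_iff]
  have r0 := row 0 (by omega)
  rw [Nat.add_zero] at r0
  rw [r0]
  simp only [Bool.or_eq_true, decide_eq_true_eq]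
  constructor
  · rintro (⟨q, h1, -, h3⟩ | ⟨q, h1, -, h3⟩) <;> exact ⟨q, h1, h3⟩
  · rintro ⟨q, h1, h3⟩
    rcases Nat.eq_zero_or_pos q.2 with h | h
    · exact Or.inr ⟨q, h1, h, h3⟩
    · exact Or.inl ⟨q, h1, h, h3⟩

/-- The signals are the signature of the parent. -/
theorem Parent.sig_eq (c : Cand M C) (H : Hubs M C VS TS sg) (p : Parent M VS TS sg T) :
    sig forb M T = sg := by
  have := c.large
  have := K_large
  funext q
  rcases q with ⟨s, t, k⟩ | i | ⟨k, n, i⟩ | k
  · exact p.side s t k
  · exact (signal_scan c H p.val i).symm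
  · exact (signal_coord c H (p.coord k) n i).symm
  · obtain ⟨b, P⟩ := c.exists_vpath
    rw [(vcol_op c H p P (i := M + K - 1) (by omega) k).2, sig_op]

open Classical in
/-- The rows of the parent. -/
theorem hrow_fill (c : Cand M C) (H : Hubs M C VS TS sg) (p : Parent M VS TS sg T) (R : HPath M C b)
    {i j : ℕ} (hi : i ≤ 2 * M) (hj : j < 2 * M) (h : HL) :
    eh M b i j h = fillH forb M T i j h := by
  have := R.large
  have := R.one_le_K
  have hK := K_large
  have hsig := p.sig_eq c H
  have marks : M + K ≤ j + 1 → (h = .Mk ∨ h = .MD ∨ h = .MU) →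
      eh M b i j h = fillH forb M T i j h := by
    intro hh hm
    obtain ⟨h1, h2, h3⟩ := hrow_val H R (v := j + 1 - (M + K)) (i := i) (by omega)
      (show j = M + K - 1 + (j + 1 - (M + K)) by omega) hi
    rw [p.val_eq 0 (by omega), p.val_eq 1 (by omega)] at h1
    rw [p.val_eq 2 (by omega)] at h2
    rw [p.val_eq 3 (by omega)] at h3
    rcases hm with rfl | rfl | rfl
    · rw [h1]
      split_ifs with hl <;> rw [Bool.eq_iff_iff] <;> simp [fillH, Tile.gs, hh, hl] <;>
        exact decide_eq_true_iff
    · rw [h2, Bool.eq_iff_iff]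
      simp [fillH, Tile.gs, hh]
      exact fun _ _ => decide_eq_true_iff
    · rw [h3, Bool.eq_iff_iff]
      simp [fillH, Tile.gs, hh]
      exact fun _ _ => decide_eq_true_iff
  rcases Nat.lt_or_ge (j + K) M with g | g
  · rw [R.row_low hi g]
    cases h <;> simp [fillH, show ¬M ≤ j + K by omega, show ¬M + K ≤ j + 1 by omega]
  rcases Nat.lt_or_ge j (M + K) with g' | g'
  swap
  · by_cases hm : h = .Mk ∨ h = .MD ∨ h = .MU
    · exact marks (by omega) hm
    · push Not at hm
      rw [R.row_high hi g' hj hm.1 hm.2.1 hm.2.2]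
      cases h <;> first
        | simp at hm; done
        | simp [fillH, show ¬j < M + K by omega]
  obtain ⟨x, hx⟩ : ∃ x, x = j + K - M := ⟨_, rfl⟩
  have hxj : j + K = M + x := by omega
  have hxK : x < 2 * K := by omega
  by_cases hin : h.IsInner
  · rw [R.row_inner hi g g' hin, fillH_inner hxj hxK hin]
    congr 1
    obtain ⟨-, a1, a2, a3⟩ := hrow_coord H R (k := 0) hxK hxj (i := i) hi
    obtain ⟨-, b1, b2, b3⟩ := hrow_coord H R (k := 1) hxK hxj (i := i) hi
    rw [p.coord_eq 0 _ hxK] at a1 a2 a3
    rw [p.coord_eq 1 _ hxK] at b1 b2 b3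
    cases h with
    | AR => simpa [cR, rowVal, Tile.gs] using a1
    | AD => simpa [cR, rowVal, Tile.gs] using a2
    | AU => simpa [cR, rowVal, Tile.gs] using a3
    | BR => simpa [cR, rowVal, Tile.gs] using b1
    | BD => simpa [cR, rowVal, Tile.gs] using b2
    | BU => simpa [cR, rowVal, Tile.gs] using b3
    | O k => exact hrow_op c H p R hxK hxj k
    | P =>
      by_cases hq : ∃ q, x = sRow q
      · obtain ⟨q, rfl⟩ := hq
        rw [hrow_signal H R q hxj, rowVal_P_sRow, hsig]
      · push Not at hq
        rw [hrow_P_shown c H R hxK hxj hq, rowVal_P_other hq, p.shown_eq]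
    | _ => exact hin.elim
  · have e1 : M ≤ j + K ∧ j < M + K := ⟨g, g'⟩
    cases h with
    | C =>
      rw [hrow_shown c H R hxK hxj hi]
      simp only [fillH, decide_eq_true e1, Bool.true_and, ← hx, p.shown_eq, decide_eq_true_eq]
    | A =>
      have := (hrow_coord H R (k := 0) hxK hxj (i := i) hi).1
      simp only [p.coord_eq 0 _ hxK, if_true, cH] at this
      rw [this]
      simp only [fillH, decide_eq_true e1, Bool.true_and, ← hx, decide_eq_true_eq]
      split_ifs <;> simp [Tile.gs] <;> exact decide_eq_decide.2 Iff.rfl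
    | B =>
      have := (hrow_coord H R (k := 1) hxK hxj (i := i) hi).1
      simp only [p.coord_eq 1 _ hxK, one_ne_zero, if_false, cH] at this
      rw [this]
      simp only [fillH, decide_eq_true e1, Bool.true_and, ← hx, decide_eq_true_eq]
      split_ifs <;> simp [Tile.gs] <;> exact decide_eq_decide.2 Iff.rfl
    | Mk =>
      rcases Nat.lt_or_ge (j + 1) (M + K) with e | e
      · rw [R.row_marks hi g e (by simp)]
        simp [fillH, show ¬M + K ≤ j + 1 by omega]
      · exact marks e (by simp)
    | MD =>
      rcases Nat.lt_or_ge (j + 1) (M + K) with e | e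
      · rw [R.row_marks hi g e (by simp)]
        simp [fillH, show ¬M + K ≤ j + 1 by omega]
      · exact marks e (by simp)
    | MU =>
      rcases Nat.lt_or_ge (j + 1) (M + K) with e | e
      · rw [R.row_marks hi g e (by simp)]
        simp [fillH, show ¬M + K ≤ j + 1 by omega]
      · exact marks e (by simp)
    | _ => exact absurd trivial hin

open Classical in
/-- The columns of the parent. -/
theorem vcol_fill (c : Cand M C) (H : Hubs M C VS TS sg) (p : Parent M VS TS sg T) (P : VPath M C b)
    {i j : ℕ} (hi : i < 2 * M) (hj : j ≤ 2 * M) (h : VL) :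
    ev M b i j h = fillV forb M T i j h := by
  have := P.large
  have := P.one_le_K
  have hK := K_large
  have hsig := p.sig_eq c H
  have marks : M + K ≤ i + 1 → ev M b i j .Mk = fillV forb M T i j .Mk := by
    intro hh
    rw [vcol_val c H P (v := i + 1 - (M + K)) (by omega)
      (show i = M + K - 1 + (i + 1 - (M + K)) by omega) hj, p.val_eq 2 (by omega),
      p.val_eq 3 (by omega)]
    split_ifs with hl <;> simp [fillV, Tile.gs, hh, hl] <;> exact decide_eq_decide.2 Iff.rfl
  by_cases hS : ∃ k, h = .S k
  · obtain ⟨k, rfl⟩ := hS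
    rw [vcol_scan H P p.val hi hj k]
    simp [fillV]
  rcases Nat.lt_or_ge (i + K) M with g | g
  · rw [P.col_left g hj]
    cases h <;> simp [fillV, show ¬M ≤ i + K by omega, show ¬M + K ≤ i + 1 by omega,
      show ¬i = M by omega]
  rcases Nat.lt_or_ge i (M + K) with g' | g'
  swap
  · by_cases hm : h = .Mk
    · subst hm
      exact marks (by omega)
    · rw [P.col_right g' hi hj hm]
      cases h <;> first
        | exact absurd rfl hm
        | simp [fillV, show ¬i < M + K by omega, show ¬i = M by omega]
  obtain ⟨a, ha⟩ : ∃ a, a = i + K - M := ⟨_, rfl⟩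
  have hai : i + K = M + a := by omega
  have haK : a < 2 * K := by omega
  have e1 : M ≤ i + K ∧ i < M + K := ⟨g, g'⟩
  by_cases hin : h.IsInner
  · rw [fillV_inner hai haK hin]
    by_cases hy : M < j + K ∧ j < M + K
    swap
    · rw [decide_eq_false hy, Bool.false_and]
      exact P.col_inner_out g g' hj hin hy
    rw [decide_eq_true hy, Bool.true_and]
    obtain ⟨e, he⟩ : ∃ e, e = j + K - M := ⟨_, rfl⟩
    have hje : j = M - K + e := by omega
    rw [← he]
    obtain ⟨t1, t2, t3⟩ := P.col_top g g' hy.1 hy.2
    cases h with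
    | CT =>
      rw [t1, vcol_shown c H P haK hai le_rfl, if_neg (by omega)]
      exact (p.shown_eq 3 a).symm
    | AT =>
      have := vcol_coord c H P (k := 0) haK hai (j := 2 * M) le_rfl
      rw [if_neg (by omega), p.coord_eq 0 3 haK] at this
      rw [t2]
      simpa [cV, colVal, Tile.gs] using this
    | BT =>
      have := vcol_coord c H P (k := 1) haK hai (j := 2 * M) le_rfl
      rw [if_neg (by omega), p.coord_eq 1 3 haK] at this
      rw [t3]
      simpa [cV, colVal, Tile.gs] using this
    | Qm =>
      rw [hje, vcol_qm c H P hai haK (e := e) (by omega) (by omega)]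
      simp only [colVal, hsig]
    | U k t =>
      by_cases hk : a = (k : ℕ)
      · rw [hje, show i = M - K + (k : ℕ) by omega, (vcol_U H P (p.coord k) t).1 e (by omega) (by omega)]
        simp [colVal, hk]
      · rw [(vcol_U_off P hai haK hy.1 hy.2 hk t).1]
        simp [colVal, hk]
    | Uk k n t =>
      by_cases hk : a = (k : ℕ)
      · rw [show i = M - K + (k : ℕ) by omega, (vcol_U H P (p.coord k) t).2 n j hy.1 hy.2]
        simp [colVal, hk]
      · rw [(vcol_U_off P hai haK hy.1 hy.2 hk t).2 n]
        simp [colVal, hk]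
    | O k =>
      by_cases hk : a + 1 = 2 * K
      · rw [hje, (vcol_op c H p P (by omega) k).1 e (by omega) (by omega)]
        simp only [colVal, decide_eq_true hk, Bool.true_and]
      · rw [← P.ed (by omega)]
        have := ((P.blockV (j := j) (c := e) hai haK (by omega) (by omega)).op_off hk k).1
        rw [this]
        simp [colVal, hk]
    | O1 k =>
      by_cases hk : a + 1 = 2 * K
      · have thru : ∀ z, M < z + K → z < M + K →
            ev M b i z (.O1 k) = ev M b i (M + K - 1) (.O1 k) :=
          fun z z1 z2 => P.col_through g g' z1 z2 (fun n x hc c0 c1 =>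
            (P.blockV hai haK hc (by omega)).op_through c0 (by omega) k)
        rw [thru j hy.1 hy.2, ← thru (M - K + 1) (by omega) (by omega)]
        simp only [colVal, decide_eq_true hk, Bool.true_and, hsig]
        rw [op_signal c H P k, show M + K - 1 = i by omega, P.eu hi (by omega)]
      · rw [← P.ed (by omega)]
        have := ((P.blockV (j := j) (c := e) hai haK (by omega) (by omega)).op_off hk k).2.2.1
        rw [this]
        simp [colVal, hk]
    | _ => exact hin.elim
  · cases h with
    | C =>
      rw [vcol_shown c H P haK hai hj]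
      simp only [fillV, decide_eq_true e1, Bool.true_and, ← ha, p.shown_eq, decide_eq_true_eq]
    | A =>
      have := vcol_coord c H P (k := 0) haK hai (j := j) hj
      simp only [p.coord_eq 0 _ haK, if_true, cV] at this
      rw [this]
      simp only [fillV, decide_eq_true e1, Bool.true_and, ← ha, decide_eq_true_eq]
      split_ifs <;> simp [Tile.gs] <;> exact decide_eq_decide.2 Iff.rfl
    | B =>
      have := vcol_coord c H P (k := 1) haK hai (j := j) hj
      simp only [p.coord_eq 1 _ haK, one_ne_zero, if_false, cV] at this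
      rw [this]
      simp only [fillV, decide_eq_true e1, Bool.true_and, ← ha, decide_eq_true_eq]
      split_ifs <;> simp [Tile.gs] <;> exact decide_eq_decide.2 Iff.rfl
    | Bus =>
      rw [vcol_bus_all c H P hai haK hj]
      simp only [fillV, decide_eq_true e1, Bool.true_and, ← ha, hsig]
    | Mk =>
      rcases Nat.lt_or_ge (i + 1) (M + K) with e | e
      · rw [P.col_marks g e hj]
        simp [fillV, show ¬M + K ≤ i + 1 by omega]
      · exact marks e
    | S k => exact absurd ⟨k, rfl⟩ hS
    | _ => exact absurd trivial hin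

/-- The parent and the children. -/
theorem exists_parent_cand (c : Cand M C) (H : Hubs M C VS TS sg) :
    ∃ T, (∀ s, M = lvl s → ∀ k, (T.gs k).InRange s) ∧ Parent M VS TS sg T ∧
      sig forb M T ∈ Allowed ∧
      ∀ i j, i < 2 * M → j < 2 * M → ∀ t ∈ C i j, t = child forb M T i j := by
  obtain ⟨T, p, hr⟩ := exists_parent_tile c H
  refine ⟨T, hr, p, ?_, fun i j hi hj t ht => ?_⟩
  · rw [p.sig_eq c H]
    exact signal_allowed c H
  obtain ⟨r, R, hR⟩ := c.hpath hi hj ht
  obtain ⟨v, P, hP⟩ := c.vpath hi hj ht
  obtain ⟨g1, g2, g3, g4⟩ := c.geom i j hi hj t ht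
  have el : t.l.bit = fillH forb M T i j := funext fun h => by
    rw [← hR, R.el hi, hrow_fill c H p R hi.le hj]
  have er : t.r.bit = fillH forb M T (i + 1) j := funext fun h => by
    rw [← hR, R.er hi hj, hrow_fill c H p R hi hj]
  have ed : t.d.bit = fillV forb M T i j := funext fun h => by
    rw [← hP, P.ed hj, vcol_fill c H p P hi hj.le]
  have eu : t.u.bit = fillV forb M T i (j + 1) := funext fun h => by
    rw [← hP, P.eu hi hj, vcol_fill c H p P hi hj]
  obtain ⟨⟨lg, lb⟩, ⟨rg, rb⟩, ⟨dg, db⟩, ⟨ug, ub⟩⟩ := t
  simp only at g1 g2 g3 g4 el er ed eu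
  subst g1 g2 g3 g4 el er ed eu
  rfl

end Vale.Agent.P196.Full.Tiles.Parse
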