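import Vale.Agent.P196.Full.Tiles.Parse.Spec

/-!
# P196: the numbers carried by the colours of a cell
-/

namespace Vale.Agent.P196.Full.Tiles

attribute [local irreducible] K M0 lvl

/-- The ring of the edge on the left of cell `(i, j)`. -/
def ringH (M i j : ℕ) : ℕ := min (min i (2 * M - i)) (min j (2 * M - 1 - j))

theorem geoH_ring {M i j w : ℕ} (h : (geoH M i j).val = some w) : w = ringH M i j := by
  unfold geoH at h
  unfold ringH
  split_ifs at h <;> simp only [GCol.val, reduceCtorEq, Option.some.injEq] at h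
  all_goals simp only [lt_min_iff] at *
  all_goals omega

theorem geoH_val_lt {M i j w : ℕ} (hM : K < M) (h : (geoH M i j).val = some w) : w + K < M := by
  have hr := geoH_ring h
  unfold ringH at hr
  by_contra hc
  have hK := Geo.one_le_K
  have : M ≤ i + K ∧ i ≤ M + K ∧ M ≤ j + K ∧ j < M + K := by omega
  unfold geoH at h
  split_ifs at h <;> simp only [GCol.val, reduceCtorEq] at h

theorem geoH_tag_le {M i j a b : ℕ} (h : geoH M i j = .tag a b) : a ≤ 2 * K ∧ b < 2 * K := by
  have := Geo.tag_inv h
  omega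

theorem geoV_val_eq {M i j : ℕ} : (geoV M i j).val = (geoH M j i).val := by
  unfold geoV
  cases geoH M j i <;> rfl

theorem geoV_ring {M i j w : ℕ} (h : (geoV M i j).val = some w) : w = ringH M j i :=
  geoH_ring (geoV_val_eq (M := M) (i := i) (j := j) ▸ h)

theorem geoV_tag {M i j a b : ℕ} (h : geoV M i j = .tag a b) : geoH M j i = .tag b a := by
  rw [← Geo.geoV_tr, h]
  rfl

/-- The four colours of a cell. -/
noncomputable def CellG (M i j : ℕ) : Fin 4 → GCol :=
  ![geoH M i j, geoH M (i + 1) j, geoV M i j, geoV M i (j + 1)]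

theorem gs_child (F : (Sg → Bool) → Bool) (M : ℕ) (T : Tile) (i j : ℕ) :
    (child F M T i j).gs = CellG M i j := by
  funext k
  fin_cases k <;> rfl

theorem hasGeom_iff {s : ℕ} {T : Tile} :
    HasGeom s T ↔ ∃ i j, i < 2 * lvl s ∧ j < 2 * lvl s ∧ T.gs = CellG (lvl s) i j := by
  refine exists_congr fun i => exists_congr fun j => ?_
  refine and_congr_right fun _ => and_congr_right fun _ => ⟨fun ⟨a, b, c, d⟩ => ?_, fun h => ?_⟩
  · funext k
    fin_cases k <;> assumption
  · exact ⟨congrFun h 0, congrFun h 1, congrFun h 2, congrFun h 3⟩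

theorem cellG_val_le {M i j : ℕ} (hM : K < M) (k : Fin 4) {w : ℕ} (h : (CellG M i j k).val = some w) :
    w + K < M := by
  fin_cases k
  · exact geoH_val_lt hM h
  · exact geoH_val_lt hM h
  · exact geoH_val_lt hM (geoV_val_eq (M := M) (i := i) (j := j) ▸ h)
  · exact geoH_val_lt hM (geoV_val_eq (M := M) (i := i) (j := j + 1) ▸ h)

theorem cellG_tag {M i j : ℕ} (k : Fin 4) {a b : ℕ} (h : CellG M i j k = .tag a b) :
    (a ≤ 2 * K ∧ b ≤ 2 * K) ∧ (a + M = i + K ∨ a + M = i + 1 + K) ∧
      (b + M = j + K ∨ b + M = j + 1 + K) := by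
  fin_cases k
  · obtain ⟨h1, h2, h3, h4, h5, h6⟩ := Geo.tag_inv (h : geoH M i j = .tag a b); omega
  · obtain ⟨h1, h2, h3, h4, h5, h6⟩ := Geo.tag_inv (h : geoH M (i + 1) j = .tag a b); omega
  · obtain ⟨h1, h2, h3, h4, h5, h6⟩ := Geo.tag_inv (geoV_tag (h : geoV M i j = .tag a b)); omega
  · obtain ⟨h1, h2, h3, h4, h5, h6⟩ :=
      Geo.tag_inv (geoV_tag (h : geoV M i (j + 1) = .tag a b)); omega

theorem cellG_close {M i j : ℕ} (hi : i < 2 * M) (hj : j < 2 * M) (k k' : Fin 4) {w w' : ℕ}
    (h : (CellG M i j k).val = some w) (h' : (CellG M i j k').val = some w') : w ≤ w' + 1 := by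
  have key : ∀ k w, (CellG M i j k).val = some w →
      w = ringH M i j ∨ w = ringH M (i + 1) j ∨ w = ringH M j i ∨ w = ringH M (j + 1) i := by
    intro k w hw
    fin_cases k
    · exact .inl (geoH_ring hw)
    · exact .inr (.inl (geoH_ring hw))
    · exact .inr (.inr (.inl (geoV_ring hw)))
    · exact .inr (.inr (.inr (geoV_ring hw)))
  have e := key k w h
  have e' := key k' w' h'
  unfold ringH at e e'
  omega

/-- The colours of a cell of the level above are in range. -/
theorem inRange_of_hasGeom {s : ℕ} {T : Tile} (h : HasGeom (s + 1) T) (k : Fin 4) :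
    (T.gs k).InRange s := by
  obtain ⟨i, j, -, -, e⟩ := hasGeom_iff.mp h
  rw [e]
  cases hg : CellG (lvl (s + 1)) i j k with
  | outer o => trivial
  | tag a b => exact (cellG_tag k hg).1
  | side z hi v =>
    have := cellG_val_le (show K < lvl (s + 1) by
      have := Geo.four_K_le_lvl (s + 1); have := Geo.one_le_K; omega) k (show (CellG (lvl (s + 1)) i j k).val = some v by rw [hg]; rfl)
    have : lvl (s + 1) = lvl s + 1 := by unfold lvl; omega
    show v ≤ lvl s - K
    omega

theorem GCol.code_lt16 (g : GCol) : g.code < 16 := by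
  cases g with
  | outer k => show (k : ℕ) < 16; omega
  | tag a b => show (if _ then 5 else 4) < 16; split <;> omega
  | side z hi v => show 8 + 2 * (z : ℕ) + (if _ then 1 else 0) < 16; split <;> omega

theorem code_eq_of_bits {g g' : GCol} (h : ∀ k : Fin 4, g.code.testBit k = g'.code.testBit k) :
    g.code = g'.code := by
  refine Nat.eq_of_testBit_eq fun i => ?_
  by_cases hi : i < 4
  · exact h ⟨i, hi⟩
  · have hp : (16 : ℕ) ≤ 2 ^ i := (show 2 ^ 4 = 16 by norm_num) ▸
      Nat.pow_le_pow_right (by norm_num) (by omega)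
    have := g.code_lt16
    have := g'.code_lt16
    rw [Nat.testBit_lt_two_pow (by omega), Nat.testBit_lt_two_pow (by omega)]

theorem code_outer {g : GCol} {k : Fin 4} (h : g.code = (GCol.outer k).code) : g = .outer k := by
  have hk := k.isLt
  cases g with
  | outer k' => simp only [GCol.code] at h; rw [Fin.ext h]
  | tag a b => simp only [GCol.code] at h; split at h <;> omega
  | side z hi v => simp only [GCol.code] at h; omega

theorem code_tag {g : GCol} {a b : ℕ} (h : g.code = (GCol.tag a b).code) :
    ∃ a' b', g = .tag a' b' ∧ ((a' = 2 * K ∨ b' = 2 * K) ↔ (a = 2 * K ∨ b = 2 * K)) := by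
  cases g with
  | outer k => have := k.isLt; simp only [GCol.code] at h; split at h <;> omega
  | tag a' b' =>
    refine ⟨a', b', rfl, ?_⟩
    simp only [GCol.code] at h
    split_ifs at h with h1 h2 <;> simp_all
  | side z hi v => simp only [GCol.code] at h; split at h <;> split at h <;> omega

theorem code_side {g : GCol} {z : Fin 4} {hi : Bool} {v : ℕ}
    (h : g.code = (GCol.side z hi v).code) : ∃ v', g = .side z hi v' := by
  cases g with
  | outer k => have := k.isLt; simp only [GCol.code] at h; omega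
  | tag a b => simp only [GCol.code] at h; split at h <;> split at h <;> omega
  | side z' hi' v' =>
    simp only [GCol.code] at h
    have : (z' : ℕ) = z ∧ hi' = hi := by cases hi <;> cases hi' <;> simp at h ⊢ <;> omega
    exact ⟨v', by rw [Fin.ext this.1, this.2]⟩

end Vale.Agent.P196.Full.Tiles
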