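import Vale.Agent.P196.Full.Tiles.Parse.Scan
import Vale.Agent.P196.Full.Tiles.Parse.Range
import Vale.Agent.P196.Full.Tiles.Equations.Values
import Vale.Agent.P196.Full.Tiles.Equations.Main
import Vale.Agent.P196.Full.Tiles.Allowed

/-!
# P196: the parent decoded from the hubs of a block
-/

namespace Vale.Agent.P196.Full.Tiles.Parse

attribute [local irreducible] K M0 lvl sRow cPos sCol usable patOf portIdx snap

/-- A colour of the parent: the kind is given, the numbers are decoded. -/
noncomputable def pcol : GCol → Option ℕ → Option ℕ → Option ℕ → GCol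
  | .outer k, _, _, _ => .outer k
  | .tag _ _, _, a, b => .tag (a.getD (2 * K)) (b.getD (2 * K))
  | .side z hi _, v, _, _ => .side z hi (v.getD 0)

/-- The parent decoded from a model of its signature, the decoded numbers and the signals. -/
noncomputable def parent (C₀ : Tile) (v : Fin 4 → Option ℕ) (co : Fin 2 → Fin 4 → Option ℕ)
    (sg : Sg → Bool) : Tile where
  l := ⟨pcol C₀.l.g (v 0) (co 0 0) (co 1 0), fun h => sg (.side 0 (.inr (.inl h)) 0)⟩
  r := ⟨pcol C₀.r.g (v 1) (co 0 1) (co 1 1), fun h => sg (.side 1 (.inr (.inl h)) 0)⟩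
  d := ⟨pcol C₀.d.g (v 2) (co 0 2) (co 1 2), fun h => sg (.side 2 (.inr (.inr h)) 0)⟩
  u := ⟨pcol C₀.u.g (v 3) (co 0 3) (co 1 3), fun h => sg (.side 3 (.inr (.inr h)) 0)⟩

theorem parent_gs (C₀ : Tile) (v : Fin 4 → Option ℕ) (co : Fin 2 → Fin 4 → Option ℕ)
    (sg : Sg → Bool) (s : Fin 4) :
    (parent C₀ v co sg).gs s = pcol (C₀.gs s) (v s) (co 0 s) (co 1 s) := by
  fin_cases s <;> rfl

/-- The numbers decoded for a colour are of its kind and in range. -/
structure Fits (m : ℕ) (g : GCol) (v a b : Option ℕ) : Prop where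
  val : v.isSome = g.val.isSome
  a_some : a.isSome = (g.coord 0).isSome
  b_some : b.isSome = (g.coord 1).isSome
  le_tag : ∀ x y, g = .tag x y → x ≤ 2 * K ∧ y ≤ 2 * K
  v_le : ∀ w, v = some w → w ≤ m
  a_lt : ∀ w, a = some w → w < 2 * K
  b_lt : ∀ w, b = some w → w < 2 * K

theorem coord_some_iff {g : GCol} {c : Fin 2} :
    (g.coord c).isSome = true ↔ ∃ x, x < 2 * K ∧ (if c = 0 then g.tagA else g.tagB) = some x := by
  rw [Option.isSome_iff_exists]
  exact ⟨fun ⟨x, h⟩ => ⟨x, coord_lt h, (coord_eq_some (coord_lt h)).1 h⟩,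
    fun ⟨x, h1, h2⟩ => ⟨x, (coord_eq_some h1).2 h2⟩⟩

/-- What a decoded colour shows. -/
theorem pcol_spec {m : ℕ} {g : GCol} {v a b : Option ℕ} (f : Fits m g v a b) :
    (pcol g v a b).val = v ∧ (pcol g v a b).coord 0 = a ∧ (pcol g v a b).coord 1 = b ∧
      (pcol g v a b).code = g.code := by
  cases g with
  | outer k =>
    have h1 := f.val
    have h2 := f.a_some
    have h3 := f.b_some
    simp only [GCol.val, GCol.coord, GCol.tagA, GCol.tagB, if_true, one_ne_zero, if_false,
      Option.filter_none, Option.isSome_none, Option.isSome_eq_false_iff, Option.isNone_iff_eq_none]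
      at h1 h2 h3
    simp [pcol, GCol.val, GCol.coord, GCol.tagA, GCol.tagB, h1, h2, h3]
  | side z hi w =>
    have h1 := f.val
    have h2 := f.a_some
    have h3 := f.b_some
    simp only [GCol.val, GCol.coord, GCol.tagA, GCol.tagB, if_true, one_ne_zero, if_false,
      Option.filter_none, Option.isSome_none, Option.isSome_eq_false_iff, Option.isNone_iff_eq_none,
      Option.isSome_some] at h1 h2 h3
    obtain ⟨w', rfl⟩ := Option.isSome_iff_exists.1 h1
    simp [pcol, GCol.val, GCol.coord, GCol.tagA, GCol.tagB, GCol.code, h2, h3]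
  | tag x y =>
    have h1 := f.val
    simp only [GCol.val, Option.isSome_none, Option.isSome_eq_false_iff,
      Option.isNone_iff_eq_none] at h1
    obtain ⟨hx, hy⟩ := f.le_tag x y rfl
    have ha : (a.getD (2 * K) = 2 * K ↔ x = 2 * K) ∧
        Option.filter (fun w => decide (w < 2 * K)) (some (a.getD (2 * K))) = a := by
      cases a with
      | none =>
        have h : ¬x < 2 * K := fun h => by
          have := f.a_some
          rw [(coord_some_iff (c := 0) (g := GCol.tag x y)).2 ⟨x, h, by simp [GCol.tagA]⟩] at this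
          simp at this
        refine ⟨by simp; omega, by simp [Option.filter]⟩
      | some w =>
        have hw := f.a_lt w rfl
        have h := f.a_some
        rw [Option.isSome_some] at h
        obtain ⟨x', h1, h2⟩ := coord_some_iff.1 h.symm
        simp only [if_true, GCol.tagA, Option.some.injEq] at h2
        exact ⟨by simp; omega, by simp [Option.filter, hw]⟩
    have hb : (b.getD (2 * K) = 2 * K ↔ y = 2 * K) ∧
        Option.filter (fun w => decide (w < 2 * K)) (some (b.getD (2 * K))) = b := by
      cases b with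
      | none =>
        have h : ¬y < 2 * K := fun h => by
          have := f.b_some
          rw [(coord_some_iff (c := 1) (g := GCol.tag x y)).2 ⟨y, h, by simp [GCol.tagB]⟩] at this
          simp at this
        refine ⟨by simp; omega, by simp [Option.filter]⟩
      | some w =>
        have hw := f.b_lt w rfl
        have h := f.b_some
        rw [Option.isSome_some] at h
        obtain ⟨y', h1, h2⟩ := coord_some_iff.1 h.symm
        simp only [one_ne_zero, if_false, GCol.tagB, Option.some.injEq] at h2
        exact ⟨by simp; omega, by simp [Option.filter, hw]⟩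
    refine ⟨by simp [pcol, GCol.val, h1], ?_, ?_, ?_⟩
    · simp only [pcol, GCol.coord, GCol.tagA, if_true]
      exact ha.2
    · simp only [pcol, GCol.coord, GCol.tagB, one_ne_zero, if_false]
      exact hb.2
    · simp only [pcol, GCol.code, ha.1, hb.1]

/-- A colour decoded in range. -/
theorem pcol_inRange {s : ℕ} {g : GCol} {v a b : Option ℕ} (f : Fits (lvl s - K) g v a b) :
    (pcol g v a b).InRange s := by
  cases g with
  | outer k => trivial
  | side z hi w =>
    obtain ⟨w', rfl⟩ := Option.isSome_iff_exists.1 (f.val.trans rfl)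
    exact f.v_le w' rfl
  | tag x y =>
    constructor
    · cases a with
      | none => exact le_rfl
      | some w => exact (f.a_lt w rfl).le
    · cases b with
      | none => exact le_rfl
      | some w => exact (f.b_lt w rfl).le

/-- A number strictly below another one. -/
def Late (v : Fin 4 → Option ℕ) (s : Fin 4) : Prop :=
  ∃ w, v s = some w ∧ ∃ t w', v t = some w' ∧ w < w'

theorem coordBit_zero_late (v : Fin 4 → Option ℕ) (s : Fin 4) :
    coordBit v 0 ⟨4 + s, by omega⟩ = true ↔ Late v s := by
  unfold coordBit Late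
  simp only [dif_neg (show ¬ 4 + (s : ℕ) < 4 by omega), dif_pos (show 4 + (s : ℕ) < 8 by omega),
    Nat.add_sub_cancel_left, Fin.eta, Nat.zero_le, decide_true, Bool.and_eq_true, decide_eq_true_eq]
  cases h : v s with
  | none => simp
  | some w =>
    simp only [Option.any_some, true_and, Option.some.injEq, exists_eq_left']
    refine exists_congr fun t => ?_
    cases v t with
    | none => simp
    | some w' => simp

theorem coordBit_zero_seen (v : Fin 4 → Option ℕ) (s : Fin 4) :
    coordBit v 0 ⟨s, by omega⟩ = (v s).isSome := by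
  unfold coordBit
  simp only [dif_pos (show (s : ℕ) < 4 by omega), Fin.eta]
  cases v s <;> simp

theorem scanBit_zero_seen (v : Fin 4 → Option ℕ) (m : ℕ) (s : Fin 4) :
    scanBit v m 0 ⟨s, by omega⟩ = (v s).isSome := by
  unfold scanBit
  simp only [dif_pos (show (s : ℕ) < 4 by omega), Fin.eta]
  cases v s <;> simp

/-- Equal numbers stay equal when only the late bits are kept, provided all are near. -/
theorem eq_of_late {v v₀ : Fin 4 → Option ℕ} (hn : Near v)
    (hs : ∀ s, (v s).isSome = (v₀ s).isSome) (hl : ∀ s, Late v s ↔ Late v₀ s) {s t : Fin 4}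
    (e : v₀ s = v₀ t) : v s = v t := by
  cases h : v s with
  | none =>
    have := hs s
    rw [h, e, ← hs t] at this
    exact (Option.isNone_iff_eq_none.1 (by simp at this; simpa using this)).symm
  | some w =>
    have := hs s
    rw [h, e, ← hs t] at this
    obtain ⟨w', h'⟩ := Option.isSome_iff_exists.1 (this.symm.trans rfl)
    rw [h', Option.some.injEq]
    have key : ∀ {s t : Fin 4} {w w' : ℕ}, v s = some w → v t = some w' → v₀ s = v₀ t → ¬w < w' := by
      intro s t w w' h h' e hlt
      obtain ⟨x, hx, u, x', hu, hxu⟩ := (hl s).1 ⟨w, h, t, w', h', hlt⟩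
      obtain ⟨y, hy, r, y', hr, hyr⟩ := (hl t).2 ⟨x, e ▸ hx, u, x', hu, hxu⟩
      rw [h'] at hy
      obtain rfl := Option.some.inj hy
      have := hn r s y' w hr h
      omega
    have h1 := key h h' e
    have h2 := key h' h e.symm
    omega

variable {M : ℕ} {C : ℕ → ℕ → Set Tile} {b : ℕ → ℕ → Tile} {VS : Fin 4 → ℕ → Bool}
  {TS : Fin 2 → Fin 4 → ℕ → Bool} {sg : Sg → Bool}

theorem signal_scan (c : Cand M C) (H : Hubs M C VS TS sg) {v : Fin 4 → Option ℕ}
    (dv : Decoded VS (M - K) v) (k : Fin 17) : sg (.scan k) = scanBit v (M - K) 0 k := by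
  have := c.large
  have := K_large
  have hq := sRow_lt (.scan k)
  obtain ⟨b, P⟩ := c.exists_vpath
  obtain ⟨y, hy⟩ : ∃ y, y = M - K + sRow (.scan k) := ⟨_, rfl⟩
  have port := (P.blockH (i := M) (j := y) (a := K) (c := sRow (.scan k)) (by omega) (by omega)
    (by omega) hq).port_scan rfl k rfl
  rw [hin_signal c H (.scan k) (a := K) (by omega) (by omega) (by omega)
      (P.chosen M y (by omega) (by omega)),
    P.vin_eq (a := K) (by omega) (by omega) (by omega) hq,
    vcol_scan H P dv (by omega) (by omega)] at port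
  rw [port, decide_eq_true ⟨rfl, by omega, by omega⟩, Bool.true_and,
    show M - K + max (sRow (.scan k)) 1 + 1 - (M + K) = 0 by omega]

theorem signal_coord (c : Cand M C) (H : Hubs M C VS TS sg) {k : Fin 2} {v : Fin 4 → Option ℕ}
    (dv : Decoded (TS k) (2 * K - 1) v) (p : Fin 3) (i : Fin 9) :
    sg (.coord k p i) = coordBit v (snap p) i := by
  have := c.large
  have := K_large
  have hk := k.isLt
  have hq := sRow_lt (.coord k p i)
  obtain ⟨b, P⟩ := c.exists_vpath
  obtain ⟨y, hy⟩ : ∃ y, y = M - K + sRow (.coord k p i) := ⟨_, rfl⟩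
  have ha : M - K + (k : ℕ) + K = M + k := by omega
  have port := (P.blockH (i := M - K + k) (j := y) (a := k) (c := sRow (.coord k p i)) ha (by omega)
    (by omega) hq).port_coord k p i rfl rfl
  rw [hin_signal c H (.coord k p i) ha (by omega) (by omega)
      (P.chosen _ y (by omega) (by omega)),
    P.vin_eq ha (by omega) (by omega) hq] at port
  rw [port]
  exact (vcol_U H P dv i).2 p _ (by omega) (by omega)

theorem op_signal (c : Cand M C) (H : Hubs M C VS TS sg) (P : VPath M C b) (k : Fin 64) :
    sg (.op k) = (b (M + K - 1) (M - K)).u.bit (.O1 k) := by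
  have := c.large
  have := K_large
  have hq := sRow_lt (.op k)
  obtain ⟨y, hy⟩ : ∃ y, y = M - K + sRow (.op k) := ⟨_, rfl⟩
  obtain ⟨i, hi⟩ : ∃ i, i = M + K - 1 := ⟨_, rfl⟩
  have ha : i + K = M + (2 * K - 1) := by omega
  have port := (P.blockH (i := i) (j := y) (c := sRow (.op k)) ha (by omega) (by omega)
    hq).port_op (by omega) k rfl
  rw [hin_signal c H (.op k) ha (by omega) (by omega) (P.chosen i y (by omega) (by omega)),
    P.vin_eq ha (by omega) (by omega) hq] at port
  rw [← hi, port, P.eu (by omega) (by omega)]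
  have thru : ∀ z, M < z + K → z < M + K → ev M b i z (.O1 k) = ev M b i (M + K - 1) (.O1 k) :=
    fun z z1 z2 => P.col_through (by omega) (by omega) z1 z2 (fun n c hc c0 c1 =>
      (P.blockV ha (by omega) hc (by omega)).op_through c0 (by omega) k)
  rw [thru _ (by omega) (by omega), thru (M - K + 1) (by omega) (by omega)]

/-- A bit in some operation row reaches the signal. -/
theorem op_le_signal (c : Cand M C) (H : Hubs M C VS TS sg) (k : Fin 64) {x i j : ℕ} {a : ℕ}
    (ha : i + K = M + a) (ha' : a < 2 * K) (hj : j + K = M + x) (hx : x < 2 * K) {T : Tile}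
    (hT : T ∈ C i j) (ho : T.hin a (.O k) = true) : sg (.op k) = true := by
  have := c.large
  have := K_large
  obtain ⟨r, R, hr⟩ := c.hpath (show i < 2 * M by omega) (show j < 2 * M by omega) hT
  rw [← hr, R.hin_eq ha ha' hj hx (h := HL.O k) trivial] at ho
  obtain ⟨e, he⟩ : ∃ e, e = M + K - 1 := ⟨_, rfl⟩
  have hae : e + K = M + (2 * K - 1) := by omega
  obtain ⟨b, P, hb⟩ := c.vpath (show e < 2 * M by omega) (show j < 2 * M by omega)
    (R.chosen e j (by omega) (by omega))
  have hin : (b e j).hin (2 * K - 1) (.O k) = true := by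
    rw [hb, R.hin_eq hae (by omega) hj hx (h := HL.O k) trivial]
    exact ho
  rw [op_signal c H P k, ← he]
  have g0 := (P.blockV (i := e) (j := M - K) (c := 0) hae (by omega) (by omega)
    (by omega)).op_total (by omega) rfl k
  rw [g0, Bool.or_eq_true]
  rcases Nat.eq_zero_or_pos x with rfl | hx0
  · right
    rwa [show M - K = j by omega]
  · left
    have main : ∀ n, n < x → ev M b e (M - K + (x - n)) (.O k) = true := by
      intro n
      induction n with
      | zero =>
        intro _
        rw [show M - K + (x - 0) = j by omega, ← P.ed (by omega),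
          (P.blockV hae (by omega) hj hx).op_step (by omega) (by omega) k, hin, Bool.or_true]
      | succ n ih =>
        intro hn
        have := ih (by omega)
        rw [← P.ed (by omega), (P.blockV (j := M - K + (x - (n + 1))) (c := x - (n + 1)) hae (by omega)
          (by omega) (by omega)).op_step (by omega) (by omega) k, Bool.or_eq_true]
        left
        rw [P.eu (by omega) (by omega), show M - K + (x - (n + 1)) + 1 = M - K + (x - n) by omega]
        exact this
    have := main (x - 1) (by omega)
    rwa [P.eu (by omega) (by omega), show M - K + 1 = M - K + (x - (x - 1)) by omega]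

/-- The decoded parent: its colours, its numbers and the cell where it is looked up. -/
structure Parent (M : ℕ) (VS : Fin 4 → ℕ → Bool) (TS : Fin 2 → Fin 4 → ℕ → Bool)
    (sg : Sg → Bool) (T : Tile) : Prop where
  val : Decoded VS (M - K) fun s => (T.gs s).val
  coord : ∀ k, Decoded (TS k) (2 * K - 1) fun s => (T.gs s).coord k
  side : ∀ s t k, T.sideBit s t = sg (.side s t k)
  cell : ∀ a b, T.tagCell = some (a, b) → a < 2 * K ∧ b < 2 * K ∧
    (T.l.g.coord 1 = some b) ∧ (T.d.g.coord 0 = some a)
  cell_none : T.tagCell = none → ∀ k, sg (.op k) = false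

/-- The model of the signals gives the parent. -/
theorem exists_parent_tile (c : Cand M C) (H : Hubs M C VS TS sg) :
    ∃ T, Parent M VS TS sg T ∧ ∀ s, M = lvl s → ∀ k, (T.gs k).InRange s := by
  obtain ⟨F, T', i', j', hT', -, hi', hj', hsg⟩ := signal_allowed c H
  obtain ⟨C₀, hC₀⟩ : ∃ C₀, C₀ = child F (lvl 1) T' i' j' := ⟨_, rfl⟩
  have g₀ : HasGeom 1 C₀ := hC₀ ▸ hasGeom_child F 1 T' hi' hj'
  rw [← hC₀] at hsg
  have ok₀ := geomOK_of_hasGeom g₀
  have rng : ∀ k x y, C₀.gs k = .tag x y → x ≤ 2 * K ∧ y ≤ 2 * K := fun k x y e => by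
    have := inRange_of_hasGeom g₀ k
    rwa [e] at this
  obtain ⟨v, dv⟩ := exists_values c H
  choose co dco using exists_coords c H
  have hval : ∀ s, (v s).isSome = (C₀.gs s).val.isSome := fun s => by
    rw [← scanBit_zero_seen v (M - K) s, ← signal_scan c H dv, hsg]
    exact scanBit_zero_seen (fun t => (C₀.gs t).val) _ s
  have hco : ∀ k s, (co k s).isSome = ((C₀.gs s).coord k).isSome := fun k s => by
    rw [← coordBit_zero_seen (co k) s, ← snap_zero, ← signal_coord c H (dco k), hsg]
    simp only [sig, snap_zero]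
    exact coordBit_zero_seen (fun t => (C₀.gs t).coord k) s
  have fits : ∀ s, Fits (M - K) (C₀.gs s) (v s) (co 0 s) (co 1 s) := fun s =>
    { val := hval s
      a_some := hco 0 s
      b_some := hco 1 s
      le_tag := rng s
      v_le := dv.le s
      a_lt := fun w h => by have := (dco 0).le s w h; have := K_large; omega
      b_lt := fun w h => by have := (dco 1).le s w h; have := K_large; omega }
  obtain ⟨T, hT⟩ : ∃ T, T = parent C₀ v co sg := ⟨_, rfl⟩
  have hgs : ∀ s, T.gs s = pcol (C₀.gs s) (v s) (co 0 s) (co 1 s) := fun s => hT ▸ parent_gs _ _ _ _ s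
  have hv : ∀ s, (T.gs s).val = v s := fun s => by rw [hgs, (pcol_spec (fits s)).1]
  have hc : ∀ k s, (T.gs s).coord k = co k s := fun k s => by
    rw [hgs]
    fin_cases k
    · exact (pcol_spec (fits s)).2.1
    · exact (pcol_spec (fits s)).2.2.1
  have hsig : ∀ s t k, sg (.side s t k) = C₀.sideBit s t := fun s t k => by rw [hsg]; rfl
  have cellT : ∀ a b, T.tagCell = some (a, b) →
      a < 2 * K ∧ b < 2 * K ∧ co 0 0 = some a ∧ co 1 0 = some b := by
    intro a b h
    have e : T.l.g = pcol C₀.l.g (v 0) (co 0 0) (co 1 0) := hgs 0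
    unfold Tile.tagCell at h
    rw [e] at h
    cases hg : C₀.l.g with
    | outer k => rw [hg] at h; simp [pcol] at h
    | side z hi w => rw [hg] at h; simp [pcol] at h
    | tag x y =>
      rw [hg] at h
      simp only [pcol, Option.ite_none_right_eq_some, Option.some.injEq, Prod.mk.injEq] at h
      obtain ⟨⟨h1, h2⟩, h3, h4⟩ := h
      refine ⟨h3 ▸ h1, h4 ▸ h2, ?_, ?_⟩
      · cases hh : co 0 0 with
        | none => rw [hh] at h1; simp at h1
        | some w => rw [hh] at h3; simpa using h3
      · cases hh : co 1 0 with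
        | none => rw [hh] at h2; simp at h2
        | some w => rw [hh] at h4; simpa using h4
  have e02 : ∀ a b, C₀.tagCell = some (a, b) → co 0 2 = co 0 0 := by
    intro a b h
    obtain ⟨ha, hb, hd, -⟩ := (ok₀.crossing a b).1 h
    have hl : C₀.l.g.tagA = some a := by
      unfold Tile.tagCell at h
      cases hg : C₀.l.g with
      | tag x y =>
        rw [hg] at h
        simp only [Option.ite_none_right_eq_some, Option.some.injEq, Prod.mk.injEq] at h
        simp [GCol.tagA, h.2.1]
      | _ => rw [hg] at h; simp at h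
    refine eq_of_late (dco 0).near (hco 0) (fun s => ?_) ?_
    · rw [← coordBit_zero_late, ← coordBit_zero_late, ← snap_zero, ← signal_coord c H (dco 0), hsg]
      simp [sig, snap_zero]
    · show C₀.d.g.coord 0 = C₀.l.g.coord 0
      rw [(coord_eq_some ha).2 (by simpa using hd), (coord_eq_some ha).2 (by simpa using hl)]
  refine ⟨T, ⟨?_, fun k => ?_, fun s t k => ?_, fun a b h => ?_, fun h k => ?_⟩, fun s hs k => ?_⟩
  · rw [funext hv]; exact dv
  · rw [funext (hc k)]; exact dco k
  · have code : ∀ s, (T.gs s).code = (C₀.gs s).code := fun s => by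
      rw [hgs, (pcol_spec (fits s)).2.2.2]
    rw [hsig s t k]
    rcases t with n | h | h <;> fin_cases s
    all_goals first
      | exact congrArg (fun m => Nat.testBit m n) (code 0)
      | exact congrArg (fun m => Nat.testBit m n) (code 1)
      | exact congrArg (fun m => Nat.testBit m n) (code 2)
      | exact congrArg (fun m => Nat.testBit m n) (code 3)
      | rfl
      | (rw [hT]; exact hsig 0 (.inr (.inl h)) 0)
      | (rw [hT]; exact hsig 1 (.inr (.inl h)) 0)
      | (rw [hT]; exact hsig 2 (.inr (.inr h)) 0)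
      | (rw [hT]; exact hsig 3 (.inr (.inr h)) 0)
  · obtain ⟨ha, hb, h0, h1⟩ := cellT a b h
    refine ⟨ha, hb, (hc 1 0).trans h1, (hc 0 2).trans ?_⟩
    cases h' : C₀.tagCell with
    | some p => obtain ⟨x, y⟩ := p; rw [e02 x y h', h0]
    | none =>
      exfalso
      have s0 : (C₀.l.g.coord 0).isSome = true := (hco 0 0).symm.trans (by rw [h0]; rfl)
      have s1 : (C₀.l.g.coord 1).isSome = true := (hco 1 0).symm.trans (by rw [h1]; rfl)
      obtain ⟨x, hx, ex⟩ := coord_some_iff.1 s0
      obtain ⟨y, hy, ey⟩ := coord_some_iff.1 s1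
      unfold Tile.tagCell at h'
      cases hg : C₀.l.g with
      | tag x' y' =>
        simp [hg, GCol.tagA, GCol.tagB] at ex ey
        subst ex ey
        simp [hg, hx, hy] at h'
      | _ => simp [hg, GCol.tagA] at ex
  · rw [hsg]
    show (C₀.tagCell.any fun p => opBit F p.1 p.2 k) = false
    cases h' : C₀.tagCell with
    | none => rfl
    | some p =>
      exfalso
      obtain ⟨x, y⟩ := p
      unfold Tile.tagCell at h' h
      have e : T.l.g = pcol C₀.l.g (v 0) (co 0 0) (co 1 0) := hgs 0
      cases hg : C₀.l.g with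
      | tag x' y' =>
        simp only [hg, Option.ite_none_right_eq_some, Option.some.injEq, Prod.mk.injEq] at h'
        obtain ⟨⟨hx, hy⟩, rfl, rfl⟩ := h'
        have s0 : (co 0 0).isSome = true := (hco 0 0).trans (coord_some_iff.2
          ⟨x', hx, by show C₀.l.g.tagA = _; rw [hg]; rfl⟩)
        have s1 : (co 1 0).isSome = true := (hco 1 0).trans (coord_some_iff.2
          ⟨y', hy, by show C₀.l.g.tagB = _; rw [hg]; rfl⟩)
        obtain ⟨a, ha⟩ := Option.isSome_iff_exists.1 s0
        obtain ⟨b, hb⟩ := Option.isSome_iff_exists.1 s1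
        have := (dco 0).le 0 a ha
        have := (dco 1).le 0 b hb
        have := K_large
        simp [e, hg, pcol, ha, hb, show a < 2 * K by omega, show b < 2 * K by omega] at h
      | _ => simp [hg] at h'
  · rw [hgs]
    exact pcol_inRange (hs ▸ fits k)

end Vale.Agent.P196.Full.Tiles.Parse
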