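import Vale.Agent.P196.Full.Tiles.Geom
import Vale.Agent.P196.Full.Tiles.Equations.Classes

/-!
# P196: the horizontal layers of one block of tiles satisfying the local equations
-/

namespace Vale.Agent.P196.Full.Tiles.Parse

/-- Tiles with the geometry of a block, satisfying the local equations. -/
structure Cells (M : ℕ) (b : ℕ → ℕ → Tile) : Prop where
  large : 4 * K ≤ M
  geom : ∀ i j, i < 2 * M → j < 2 * M → SameGeom M i j (b i j)
  eqs : ∀ i j, i < 2 * M → j < 2 * M → LocalEq forb (b i j)

/-- Cells of a block matching along every row. -/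
structure HBlk (M : ℕ) (b : ℕ → ℕ → Tile) : Prop extends Cells M b where
  mh : ∀ i j, i + 1 < 2 * M → j < 2 * M → (b i j).r = (b (i + 1) j).l

/-- Cells of a block matching along every column. -/
structure VBlk (M : ℕ) (b : ℕ → ℕ → Tile) : Prop extends Cells M b where
  mv : ∀ i j, i < 2 * M → j + 1 < 2 * M → (b i j).u = (b i (j + 1)).d

/-- The bit of a vertical edge of a block. -/
def eh (M : ℕ) (b : ℕ → ℕ → Tile) (i j : ℕ) (h : HL) : Bool :=
  if i < 2 * M then (b i j).l.bit h else (b (i - 1) j).r.bit h

/-- The bit of a horizontal edge of a block. -/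
def ev (M : ℕ) (b : ℕ → ℕ → Tile) (i j : ℕ) (h : VL) : Bool :=
  if j < 2 * M then (b i j).d.bit h else (b i (j - 1)).u.bit h

variable {M : ℕ} {b : ℕ → ℕ → Tile} {i j : ℕ}

theorem Cells.one_le_K (_B : Cells M b) : 1 ≤ K := by
  have := K_large
  omega

theorem Cells.cls (B : Cells M b) (hi : i < 2 * M) (hj : j < 2 * M) : CellClass (b i j) M i j := by
  have c := cellClass (fun _ => false) (b i j) B.large hi hj
  obtain ⟨hl, hr, hd, hu⟩ := B.geom i j hi hj
  obtain ⟨c1, c2, c3, c4, c5, c6⟩ := c
  simp only [Tile.IsUpper, Tile.IsLower, Tile.IsTR, Tile.IsTL, Tile.IsTop, Tile.tagCell, child]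
    at c1 c2 c3 c4 c5 c6
  exact ⟨by simpa only [Tile.IsUpper, hl, hr] using c1, by simpa only [Tile.IsLower, hl, hr] using c2,
    by simpa only [Tile.IsTR, hl, hd] using c3, by simpa only [Tile.IsTL, hr, hd] using c4,
    by simpa only [Tile.IsTop, hu] using c5, by simpa only [Tile.tagCell, hl] using c6⟩

theorem Cells.el (_B : Cells M b) (hi : i < 2 * M) (h : HL) : (b i j).l.bit h = eh M b i j h := by
  simp [eh, hi]

theorem HBlk.er (B : HBlk M b) (hi : i < 2 * M) (hj : j < 2 * M) (h : HL) :
    (b i j).r.bit h = eh M b (i + 1) j h := by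
  unfold eh
  split_ifs with h1
  · rw [B.mh i j h1 hj]
  · rw [Nat.add_sub_cancel]

theorem Cells.ed (_B : Cells M b) (hj : j < 2 * M) (h : VL) : (b i j).d.bit h = ev M b i j h := by
  simp [ev, hj]

theorem VBlk.eu (B : VBlk M b) (hi : i < 2 * M) (hj : j < 2 * M) (h : VL) :
    (b i j).u.bit h = ev M b i (j + 1) h := by
  unfold ev
  split_ifs with h1
  · rw [B.mv i j hi h1]
  · rw [Nat.add_sub_cancel]

/-- The block cell at `(i, j)`. -/
theorem Cells.tagCell_at (B : Cells M b) {a c : ℕ} (ha : i + K = M + a) (ha' : a < 2 * K)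
    (hc : j + K = M + c) (hc' : c < 2 * K) : (b i j).tagCell = some (a, c) := by
  have := B.large
  exact ((B.cls (by omega) (by omega)).cell a c).2 (by omega)

theorem Cells.blockH (B : Cells M b) {a c : ℕ} (ha : i + K = M + a) (ha' : a < 2 * K)
    (hc : j + K = M + c) (hc' : c < 2 * K) : BlockH forb a c (b i j) :=
  have := B.large
  (B.eqs i j (by omega) (by omega)).blockH a c (B.tagCell_at ha ha' hc hc')

theorem Cells.blockV (B : Cells M b) {a c : ℕ} (ha : i + K = M + a) (ha' : a < 2 * K)
    (hc : j + K = M + c) (hc' : c < 2 * K) : BlockV forb a c (b i j) :=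
  have := B.large
  (B.eqs i j (by omega) (by omega)).blockV a c (B.tagCell_at ha ha' hc hc')

theorem Cells.upperEq (B : Cells M b) (hi : i = M) (hj : M + K ≤ j) (hj' : j < 2 * M) :
    UpperEq (b i j) :=
  have := B.large
  have := B.one_le_K
  (B.eqs i j (by omega) hj').upper ((B.cls (by omega) hj').upper.2 ⟨hi, hj⟩)

theorem Cells.cornerEq (B : Cells M b) (hi : i = j) (hj : M + K ≤ j) (hj' : j < 2 * M) :
    CornerEq (b i j) :=
  (B.eqs i j (by omega) hj').corner ((B.cls (by omega) hj').tr.2 ⟨hi, by omega⟩)

/-- A cell away from the block, the upper switch and the top right corners. -/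
theorem Cells.plain (B : Cells M b) (hi : i < 2 * M) (hj : j < 2 * M)
    (ho : ¬(M ≤ i + K ∧ i < M + K ∧ M ≤ j + K ∧ j < M + K)) (hup : ¬(i = M ∧ M + K ≤ j))
    (htr : ¬(i = j ∧ M + K ≤ i)) :
    (∀ h, (b i j).r.bit h = (b i j).l.bit h) ∧
      ∀ h, (h = VL.Bus → j + 1 ≠ 2 * M) → (b i j).u.bit h = (b i j).d.bit h := by
  have c := B.cls hi hj
  have h1 : (b i j).tagCell = none := by
    cases hc : (b i j).tagCell with
    | none => rfl
    | some p =>
      obtain ⟨a, a'⟩ := p
      exact absurd ((c.cell a a').1 hc) (fun h => ho ⟨h.1, h.2.1, h.2.2.1, h.2.2.2.1⟩)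
  have h2 : ¬(b i j).IsUpper := fun h => hup (c.upper.1 h)
  have h3 : ¬(b i j).IsTR := fun h => htr (c.tr.1 h)
  exact ⟨(B.eqs i j hi hj).straightH h1 h2 h3,
    fun h hb => (B.eqs i j hi hj).straightV h1 h2 h3 h fun e ht => hb e (c.top.1 ht)⟩

/-- A layer straight through the cells between two edges of a row is constant there. -/
theorem HBlk.hconst (B : HBlk M b) (hj : j < 2 * M) (h : HL) {i₀ i₁ : ℕ} (h01 : i₀ ≤ i₁)
    (h1 : i₁ ≤ 2 * M)
    (step : ∀ i, i₀ ≤ i → i < i₁ → (b i j).r.bit h = (b i j).l.bit h) :
    eh M b i₁ j h = eh M b i₀ j h := by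
  induction i₁, h01 using Nat.le_induction with
  | base => rfl
  | succ n hn ih =>
    rw [← ih (by omega) (fun i a c => step i a (by omega)), ← B.er (by omega) hj, ← B.el (by omega)]
    exact step n hn (by omega)

/-- Rows below the block carry nothing. -/
theorem HBlk.row_low (B : HBlk M b) (hi : i ≤ 2 * M) (hj : j + K < M) (h : HL) :
    eh M b i j h = false := by
  have := B.large
  have := B.one_le_K
  have hm : M < 2 * M := by omega
  have low := (B.eqs M j hm (by omega)).lower ((B.cls hm (by omega)).lower.2 ⟨rfl, hj⟩) h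
  have str : ∀ i, i < 2 * M → (b i j).r.bit h = (b i j).l.bit h := fun i hi =>
    (B.plain hi (by omega) (by omega) (by omega) (by omega)).1 h
  rcases Nat.le_total i M with hl | hl
  · rw [← B.hconst (by omega) h hl (by omega) (fun i _ g => str i (by omega)), ← B.el hm]
    exact low.1
  · rw [B.hconst (by omega) h hl hi (fun i _ g => str i (by omega)), ← B.el hm]
    exact low.1

/-- Rows above the block carry only markers. -/
theorem HBlk.row_high (B : HBlk M b) (hi : i ≤ 2 * M) (hj : M + K ≤ j) (hj' : j < 2 * M) {h : HL}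
    (h1 : h ≠ HL.Mk) (h2 : h ≠ HL.MD) (h3 : h ≠ HL.MU) : eh M b i j h = false := by
  have := B.large
  have := B.one_le_K
  have hm : M < 2 * M := by omega
  have up := (B.upperEq rfl hj hj').h_zero h h1 h2 h3
  have str : ∀ i, i < 2 * M → i ≠ M → (b i j).r.bit h = (b i j).l.bit h := fun i hi hne => by
    by_cases hd : i = j
    · exact (B.cornerEq hd hj hj').h_through h h2 h3
    · exact (B.plain hi hj' (by omega) (by omega) (by omega)).1 h
  rcases Nat.le_total i M with hl | hl
  · rw [← B.hconst hj' h hl (by omega) (fun i _ g => str i (by omega) (by omega)), ← B.el hm]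
    exact up.1
  · rcases Nat.eq_or_lt_of_le hl with rfl | hl
    · rw [← B.el hm]
      exact up.1
    · rw [B.hconst hj' h (i₀ := M + 1) hl hi (fun i g _ => str i (by omega) (by omega)),
        ← B.er hm hj']
      exact up.2

/-- The markers of the left and right sides. -/
theorem HBlk.row_mk (B : HBlk M b) (hi : i ≤ 2 * M) (hj : M + K ≤ j + 1) (hj' : j < 2 * M) :
    eh M b i j .Mk = if i ≤ M then eh M b 0 j .Mk else eh M b (2 * M) j .Mk := by
  have := B.large
  have := B.one_le_K
  have str : ∀ i, i < 2 * M → i ≠ M → (b i j).r.bit .Mk = (b i j).l.bit .Mk := fun i hi hne => by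
    by_cases ho : M ≤ i + K ∧ i < M + K ∧ M ≤ j + K ∧ j < M + K
    · exact (B.blockH (a := i + K - M) (c := j + K - M) (by omega) (by omega) (by omega)
        (by omega)).mk_through (by omega)
    by_cases hd : i = j ∧ M + K ≤ i
    · exact (B.cornerEq hd.1 (by omega) hj').h_through _ (by simp) (by simp)
    · exact (B.plain hi hj' ho (by omega) hd).1 _
  split_ifs with hl
  · exact B.hconst hj' _ (Nat.zero_le i) (by omega) (fun i _ g => str i (by omega) (by omega))
  · exact (B.hconst hj' _ (by omega) le_rfl (fun i g _ => str i (by omega) (by omega))).symm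

/-- The markers of the bottom and top sides, turned at the diagonal. -/
theorem HBlk.row_md (B : HBlk M b) (hi : i ≤ 2 * M) (hj : M + K ≤ j + 1) (hj' : j < 2 * M) :
    eh M b i j .MD = (decide (M < i ∧ i ≤ j) && (b j j).d.bit .Mk) ∧
      eh M b i j .MU = (decide (M < i ∧ i ≤ j) && (b j j).u.bit .Mk) := by
  have := B.large
  have := B.one_le_K
  have hK := K_large
  have switch : (b M j).l.bit .MD = false ∧ (b M j).l.bit .MU = false := by
    by_cases hh : M + K ≤ j
    · exact (B.upperEq rfl hh hj').md_left
    · exact (B.blockH (i := M) (j := j) (a := K) (c := j + K - M) (by omega) (by omega) (by omega) (by omega)).md_left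
        le_rfl
  have turn : (b j j).l.bit .MD = (b j j).d.bit .Mk ∧ (b j j).r.bit .MD = false ∧
      (b j j).l.bit .MU = (b j j).u.bit .Mk ∧ (b j j).r.bit .MU = false := by
    by_cases hh : M + K ≤ j
    · have := B.cornerEq rfl hh hj'
      exact ⟨this.md_turn.1, this.md_turn.2, this.mu_turn.1, this.mu_turn.2⟩
    · obtain ⟨t1, t2, t3⟩ := (B.blockH (i := j) (j := j) (a := j + K - M) (c := j + K - M) (by omega)
        (by omega) (by omega) (by omega)).md_turn (by omega)
      exact ⟨(t3 (by omega)).1, t1, (t3 (by omega)).2, t2⟩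
  have str : ∀ h : HL, h = HL.MD ∨ h = HL.MU → ∀ i, i < 2 * M → i ≠ M → i ≠ j →
      (b i j).r.bit h = (b i j).l.bit h := fun h hh i hi h1 h2 => by
    by_cases ho : M ≤ i + K ∧ i < M + K ∧ M ≤ j + K ∧ j < M + K
    · have g := B.blockH (a := i + K - M) (c := j + K - M) (i := i) (j := j) (by omega) (by omega)
        (by omega) (by omega)
      rcases Nat.lt_or_ge i M with hlt | hge
      · have u := g.md_left (by omega)
        have v := g.md_low (by omega)
        rcases hh with rfl | rfl <;> simp [u, v]
      · have u := g.md_through (by omega) (by omega)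
        rcases hh with rfl | rfl <;> simp [u]
    · exact (B.plain hi hj' ho (by omega) (by omega)).1 h
  have key : ∀ (h : HL) (v : Bool), h = HL.MD ∨ h = HL.MU → (b M j).l.bit h = false →
      (b j j).l.bit h = v → (b j j).r.bit h = false →
      eh M b i j h = (decide (M < i ∧ i ≤ j) && v) := by
    intro h v hh e1 e2 e3
    rcases Nat.lt_or_ge M i with h1 | h1
    · rcases Nat.lt_or_ge j i with h2 | h2
      · rw [decide_eq_false (by omega), Bool.false_and, ← e3, B.er hj' hj',
          B.hconst hj' h (i₀ := j + 1) h2 hi (fun i g _ => str h hh i (by omega) (by omega) (by omega))]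
      · rw [decide_eq_true ⟨h1, h2⟩, Bool.true_and, ← e2, B.el hj',
          B.hconst hj' h h2 hj'.le (fun i g _ => str h hh i (by omega) (by omega) (by omega))]
    · rw [decide_eq_false (by omega), Bool.false_and, ← e1, B.el (by omega),
        B.hconst hj' h h1 (by omega) (fun i _ g => str h hh i (by omega) (by omega) (by omega))]
  constructor
  · exact key .MD _ (Or.inl rfl) switch.1 turn.1 turn.2.1
  · exact key .MU _ (Or.inr rfl) switch.2 turn.2.2.1 turn.2.2.2

/-- A layer straight outside the block in a row of the block. -/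
theorem HBlk.row_outside (B : HBlk M b) (hj : M ≤ j + K) (hj' : j < M + K) (h : HL)
    (hi : i ≤ 2 * M) :
    (i + K ≤ M → eh M b i j h = eh M b (M - K) j h) ∧
      (M + K ≤ i → eh M b i j h = eh M b (M + K) j h) := by
  have := B.large
  have str : ∀ i, i < 2 * M → ¬(M ≤ i + K ∧ i < M + K) → (b i j).r.bit h = (b i j).l.bit h :=
    fun i hi hout => (B.plain hi (by omega) (fun g => hout ⟨g.1, g.2.1⟩) (by omega) (by omega)).1 h
  exact ⟨fun hl => (B.hconst (by omega) h (by omega) (by omega)
      (fun i _ g => str i (by omega) (by omega))).symm,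
    fun hl => B.hconst (by omega) h hl hi (fun i g _ => str i (by omega) (by omega))⟩

/-- Markers in the rows of the block. -/
theorem HBlk.row_marks (B : HBlk M b) (hi : i ≤ 2 * M) (hj : M ≤ j + K) (hj' : j + 1 < M + K)
    {h : HL} (hh : h = HL.Mk ∨ h = HL.MD ∨ h = HL.MU) : eh M b i j h = false := by
  have := B.large
  have := B.one_le_K
  have blk : ∀ i, M ≤ i + K → i < M + K →
      (b i j).l.bit h = false ∧ (b i j).r.bit h = false := fun i g1 g2 =>
    (B.blockH (a := i + K - M) (c := j + K - M) (by omega) (by omega) (by omega)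
      (by omega)).marks_zero (by omega) h hh
  obtain ⟨o1, o2⟩ := B.row_outside hj (by omega) h hi
  rcases Nat.lt_or_ge i (M + K) with g1 | g1
  · rcases Nat.lt_or_ge M (i + K) with g2 | g2
    · rw [← B.el (by omega)]
      exact (blk i (by omega) g1).1
    · rw [o1 g2, ← B.el (by omega)]
      exact (blk (M - K) (by omega) (by omega)).1
  · rw [o2 g1, show M + K = M + K - 1 + 1 by omega, ← B.er (by omega) (by omega)]
    exact (blk (M + K - 1) (by omega) (by omega)).2

/-- The shown bits and tag coordinates of the left and right sides. -/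
theorem HBlk.row_shown (B : HBlk M b) (hi : i ≤ 2 * M) (hj : M ≤ j + K) (hj' : j < M + K)
    {h : HL} (hh : h = HL.C ∨ h = HL.A ∨ h = HL.B) :
    eh M b i j h = if i + 1 ≤ M + K then eh M b 0 j h else eh M b (2 * M) j h := by
  have := B.large
  have := B.one_le_K
  have str : ∀ i, i < 2 * M → i + 1 ≠ M + K → (b i j).r.bit h = (b i j).l.bit h := fun i hi hne => by
    by_cases ho : M ≤ i + K ∧ i < M + K
    · exact (B.blockH (a := i + K - M) (c := j + K - M) (by omega) (by omega) (by omega)
        (by omega)).through (by omega) h hh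
    · exact (B.plain hi (by omega) (fun g => ho ⟨g.1, g.2.1⟩) (by omega) (by omega)).1 h
  split_ifs with hl
  · exact B.hconst (by omega) h (Nat.zero_le i) hi (fun i _ g => str i (by omega) (by omega))
  · exact (B.hconst (by omega) h hi le_rfl (fun i g _ => str i (by omega) (by omega))).symm

/-- The inner layers of a row of the block. -/
theorem HBlk.row_inner (B : HBlk M b) (hi : i ≤ 2 * M) (hj : M ≤ j + K) (hj' : j < M + K)
    {h : HL} (hh : h.IsInner) :
    eh M b i j h = (decide (M < i + K ∧ i < M + K) && eh M b (M + K - 1) j h) := by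
  have := B.large
  have := B.one_le_K
  have hc : j + K = M + (j + K - M) := by omega
  obtain ⟨o1, o2⟩ := B.row_outside hj hj' h hi
  rcases Nat.lt_or_ge i (M + K) with g1 | g1
  · rcases Nat.lt_or_ge M (i + K) with g2 | g2
    · rw [decide_eq_true ⟨g2, g1⟩, Bool.true_and]
      refine (B.hconst (by omega) h (by omega) (by omega) fun n n1 n2 => ?_).symm
      exact (B.blockH (i := n) (a := n + K - M) (by omega) (by omega) hc (by omega)).inner_through
        (by omega) (by omega) h hh
    · rw [decide_eq_false (by omega), Bool.false_and, o1 g2, ← B.el (by omega)]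
      exact (B.blockH (i := M - K) (a := 0) (by omega) (by omega) hc (by omega)).inner_left rfl h hh
  · rw [decide_eq_false (by omega), Bool.false_and, o2 g1, show M + K = M + K - 1 + 1 by omega,
      ← B.er (by omega) (by omega)]
    exact (B.blockH (i := M + K - 1) (a := 2 * K - 1) (by omega) (by omega) hc
      (by omega)).inner_right (by omega) h hh

/-- An inner layer at a block cell. -/
theorem HBlk.hin_eq (B : HBlk M b) {a c : ℕ} (ha : i + K = M + a) (ha' : a < 2 * K)
    (hc : j + K = M + c) (hc' : c < 2 * K) {h : HL} (hh : h.IsInner) :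
    (b i j).hin a h = eh M b (M + K - 1) j h := by
  have := B.large
  unfold Tile.hin
  split_ifs with h0
  · rw [B.er (by omega) (by omega), B.row_inner (by omega) (by omega) (by omega) hh,
      decide_eq_true (by omega), Bool.true_and]
  · rw [B.el (by omega), B.row_inner (by omega) (by omega) (by omega) hh,
      decide_eq_true (by omega), Bool.true_and]

end Vale.Agent.P196.Full.Tiles.Parse
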