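import Vale.Agent.P196.Full.Tiles.Parse.Lines

/-!
# P196: the scans and the test of the signals on every column path
-/

namespace Vale.Agent.P196.Full.Tiles.Parse

variable {M : ℕ} {C : ℕ → ℕ → Set Tile} {b : ℕ → ℕ → Tile} {VS : Fin 4 → ℕ → Bool}
  {TS : Fin 2 → Fin 4 → ℕ → Bool} {sg : Sg → Bool}

theorem snap_lt (p : Fin 3) : snap p < 2 * K := by
  have := snap_le p
  have := K_large
  omega

theorem snap_zero : snap 0 = 0 := by simp [snap]

/-- Some path along the columns exists. -/
theorem Cand.exists_vpath (c : Cand M C) : ∃ b, VPath M C b := by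
  have := c.large
  have := K_large
  obtain ⟨T, hT⟩ := c.ne 0 0 (by omega) (by omega)
  obtain ⟨b, hb, -⟩ := c.vpath (show 0 < 2 * M by omega) (show 0 < 2 * M by omega) hT
  exact ⟨b, hb⟩

/-- The steps of the scan of the values on the switch column. -/
theorem scan_steps (H : Hubs M C VS TS sg) (P : VPath M C b) :
    (∀ k, ev M b M (2 * M) (.S k) = false) ∧ ∀ x, x + K ≤ M →
      (∀ k, ev M b M (M + K - 1 + x) (.S k) = scanStep (decide (x = 0)) (decide (x = M - K))
          (fun s => VS s x) (fun i => ev M b M (M + K - 1 + (x + 1)) (.S i)) k) ∧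
      ScanOnce (fun s => VS s x) (fun i => ev M b M (M + K - 1 + (x + 1)) (.S i)) := by
  have := P.large
  have := P.one_le_K
  refine ⟨fun k => ?_, fun x hx => ?_⟩
  · have e := ((P.eqs M (2 * M - 1) (by omega) (by omega)).top
      ((P.cls (by omega) (by omega)).top.2 (by omega))).2 k
    rwa [P.eu (by omega) (by omega), show 2 * M - 1 + 1 = 2 * M by omega] at e
  obtain ⟨n, hn⟩ : ∃ n, n = M + K - 1 + x := ⟨_, rfl⟩
  have hn' : n < 2 * M := by omega
  have hm : (b M n).valMark = fun s => VS s x :=
    funext (H.value x hx _ (hn ▸ P.chosen M n (by omega) hn'))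
  have eu : (fun i => (b M n).u.bit (.S i)) = fun i => ev M b M (M + K - 1 + (x + 1)) (.S i) :=
    funext fun i => by rw [P.eu (by omega) hn', show M + K - 1 + (x + 1) = n + 1 by omega]
  rcases Nat.eq_zero_or_pos x with rfl | hx0
  · have g := P.blockV (i := M) (j := n) (a := K) (c := 2 * K - 1) (by omega) (by omega) (by omega)
      (by omega)
    have st := g.scan_step rfl (by omega)
    have on := g.scan_once rfl (by omega)
    rw [hm, eu] at st on
    refine ⟨fun k => ?_, on⟩
    rw [decide_eq_true rfl, decide_eq_false (show ¬ 0 = M - K by omega), ← hn, ← P.ed hn']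
    exact st k
  · have g := P.upperEq (i := M) (j := n) rfl (by omega) hn'
    have st := g.step (decide (x = M - K))
      (by rw [decide_eq_true_eq, (P.cls (show M < 2 * M by omega) hn').top]; omega)
    have on := g.once
    rw [hm, eu] at st on
    refine ⟨fun k => ?_, on⟩
    rw [decide_eq_false (show ¬ x = 0 by omega), ← hn, ← P.ed hn']
    exact st k

/-- The values decoded from the switch column. -/
theorem exists_values (c : Cand M C) (H : Hubs M C VS TS sg) :
    ∃ v, Decoded VS (M - K) v := by
  have := c.large
  obtain ⟨b, P⟩ := c.exists_vpath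
  have := P.one_le_K
  obtain ⟨htop, hst⟩ := scan_steps H P
  obtain ⟨E, hE⟩ : ∃ E : ℕ → Fin 17 → Bool, E = fun x k => ev M b M (M + K - 1 + x) (.S k) :=
    ⟨_, rfl⟩
  have top : ∀ k, E (M - K + 1) k = false := fun k => by
    rw [hE]
    simp only
    rw [show M + K - 1 + (M - K + 1) = 2 * M by omega]
    exact htop k
  refine exists_decoded (fun x s => E x ⟨s, by omega⟩) (fun x s => E x ⟨4 + s, by omega⟩)
    (fun x => E x 16) (fun s => top _) (fun x hx s => ?_) (fun x hx s => ?_) (fun x hx => ?_)
    (fun x hx k s h1 h2 => ?_)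
  all_goals subst hE
  · have h := (hst x (by omega)).1 ⟨s, by omega⟩
    simp only [scanStep, dif_pos (show (s : ℕ) < 4 by omega), Fin.eta] at h
    exact h
  · have h := (hst x (by omega)).1 ⟨4 + s, by omega⟩
    simp only [scanStep, dif_neg (show ¬ 4 + (s : ℕ) < 4 by omega),
      dif_pos (show 4 + (s : ℕ) < 8 by omega), Nat.add_sub_cancel_left, Fin.eta] at h
    exact h
  · have h := (hst x (by omega)).1 16
    simpa [scanStep] using h
  · exact (hst x (by omega)).2 k s h1 h2

/-- The scan of the values on every column. -/
theorem vcol_scan (H : Hubs M C VS TS sg) (P : VPath M C b) {v : Fin 4 → Option ℕ}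
    (dv : Decoded VS (M - K) v) {i j : ℕ} (hi : i < 2 * M) (hj : j ≤ 2 * M) (k : Fin 17) :
    ev M b i j (.S k) = (decide (i = M ∧ M < j + K ∧ j < 2 * M) &&
      scanBit v (M - K) (j + 1 - (M + K)) k) := by
  have := P.large
  have := P.one_le_K
  obtain ⟨htop, hst⟩ := scan_steps H P
  by_cases hm : i = M
  · subst hm
    have val : ∀ x, x ≤ i - K + 1 → ev i b i (i + K - 1 + x) (.S k) = scanBit v (i - K) x k :=
      fun x hx => dv.scan (fun x k => ev i b i (i + K - 1 + x) (.S k))
        (fun k => by rw [show i + K - 1 + (i - K + 1) = 2 * i by omega]; exact htop k)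
        (fun x hx k => (hst x (by omega)).1 k) x hx k
    rcases Nat.lt_or_ge i (j + K) with g | g
    · rcases Nat.lt_or_ge j (2 * i) with g' | g'
      · rw [decide_eq_true ⟨rfl, g, g'⟩, Bool.true_and, ← val _ (by omega)]
        rcases Nat.lt_or_ge j (i + K) with g'' | g''
        · rw [P.col_through (i := i) (j := j) (by omega) (by omega) g g'' (fun n c hc c0 c1 =>
            (P.blockV (a := K) (by omega) (by omega) hc (by omega)).scan_through c0 (by omega) k),
            show i + K - 1 + (j + 1 - (i + K)) = i + K - 1 by omega]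
        · rw [show i + K - 1 + (j + 1 - (i + K)) = j by omega]
      · rw [decide_eq_false (by omega), Bool.false_and, show j = 2 * i by omega]
        exact htop k
    · rw [decide_eq_false (by omega), Bool.false_and,
        ← P.vconst hi _ (show j ≤ i - K by omega) (by omega) (fun n _ g'' =>
          (P.plain hi (by omega) (by omega) (by omega) (by omega)).2 _ (by simp)), ← P.ed (by omega)]
      exact (P.blockV (i := i) (j := i - K) (a := K) (c := 0) (by omega) (by omega) (by omega)
        (by omega)).scan_bot rfl k
  · rw [decide_eq_false (fun h => hm h.1), Bool.false_and]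
    rcases Nat.lt_or_ge (i + K) M with g | g
    · exact P.col_left g hj _
    rcases Nat.lt_or_ge i (M + K) with g' | g'
    swap
    · exact P.col_right g' hi hj (by simp)
    have off : ∀ n, M ≤ n + K → n < M + K →
        (b i n).d.bit (.S k) = false ∧ (b i n).u.bit (.S k) = false := fun n g1 g2 =>
      (P.blockV (a := i + K - M) (c := n + K - M) (by omega) (by omega) (by omega)
        (by omega)).scan_off (by omega) k
    have str : ∀ n, n < 2 * M → ¬(M ≤ n + K ∧ n < M + K) →
        (b i n).u.bit (.S k) = (b i n).d.bit (.S k) := fun n hn ho =>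
      (P.plain hi hn (fun e => ho ⟨e.2.2.1, e.2.2.2⟩) (fun e => hm e.1) (by omega)).2 _ (by simp)
    rcases Nat.lt_or_ge j (M + K) with e | e
    · rcases Nat.lt_or_ge M (j + K) with e' | e'
      · rw [← P.ed (by omega)]
        exact (off j (by omega) e).1
      · rw [← P.vconst hi _ (show j ≤ M - K by omega) (by omega)
          (fun n _ g'' => str n (by omega) (by omega)), ← P.ed (by omega)]
        exact (off (M - K) (by omega) (by omega)).1
    · rw [P.vconst hi _ (j₀ := M + K) e hj (fun n g'' _ => str n (by omega) (by omega)),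
        show M + K = M + K - 1 + 1 by omega, ← P.eu hi (by omega)]
      exact (off (M + K - 1) (by omega) (by omega)).2

/-- The steps of the scan of a tag coordinate. -/
theorem coord_steps (H : Hubs M C VS TS sg) (P : VPath M C b) (k : Fin 2) {x : ℕ}
    (hx : x < 2 * K) :
    (∀ i, (if x = 0 then ev M b (M - K + k) (M - K + 1) (.Uk k 0 i)
        else ev M b (M - K + k) (M - K + x) (.U k i)) =
      coordStep (fun s => TS k s x) (fun i => ev M b (M - K + k) (M - K + (x + 1)) (.U k i)) i) ∧
      CoordOnce (fun s => TS k s x) (fun i => ev M b (M - K + k) (M - K + (x + 1)) (.U k i)) := by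
  have := P.large
  have := K_large
  have hk := k.isLt
  obtain ⟨n, hn⟩ : ∃ n, n = M - K + x := ⟨_, rfl⟩
  have hn' : n < 2 * M := by omega
  have ha : M - K + (k : ℕ) + K = M + k := by omega
  have hm : (b (M - K + k) n).tagMark k k = fun s => TS k s x :=
    funext (H.coord k x hx _ (hn ▸ P.chosen _ n (by omega) hn'))
  have eu : (fun i => (b (M - K + k) n).u.bit (.U k i)) =
      fun i => ev M b (M - K + k) (M - K + (x + 1)) (.U k i) :=
    funext fun i => by rw [P.eu (by omega) hn', show M - K + (x + 1) = n + 1 by omega]
  have g := P.blockV (i := M - K + k) (j := n) (c := x) ha (by omega) (by omega) hx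
  have on := g.coord_once k rfl
  rw [hm, eu] at on
  refine ⟨fun i => ?_, on⟩
  split_ifs with h0
  · have st := g.coord_snap k 0 rfl (by rw [snap_zero]; omega) i
    rw [hm, eu, P.vin_eq (a := k) ha (by omega) (by omega) hx,
      show M - K + max x 1 = M - K + 1 by omega] at st
    exact st
  · have st := g.coord_step k rfl h0 i
    rw [hm, eu, P.ed hn', hn] at st
    exact st

/-- The tag coordinates decoded from their columns. -/
theorem exists_coords (c : Cand M C) (H : Hubs M C VS TS sg) (k : Fin 2) :
    ∃ v, Decoded (TS k) (2 * K - 1) v := by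
  have := c.large
  have := K_large
  have hk := k.isLt
  obtain ⟨b, P⟩ := c.exists_vpath
  obtain ⟨E, hE⟩ : ∃ E : ℕ → Fin 9 → Bool, E = fun x i => if x = 0
      then ev M b (M - K + k) (M - K + 1) (.Uk k 0 i)
      else ev M b (M - K + k) (M - K + x) (.U k i) := ⟨_, rfl⟩
  have top : ∀ i, E (2 * K - 1 + 1) i = false := fun i => by
    rw [hE]
    simp only
    rw [if_neg (by omega)]
    exact P.col_inner_out (by omega) (by omega) (by omega) trivial (by omega)
  have st : ∀ x ≤ 2 * K - 1, (∀ i, E x i = coordStep (fun s => TS k s x) (E (x + 1)) i) ∧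
      CoordOnce (fun s => TS k s x) (E (x + 1)) := fun x hx => by
    subst hE
    obtain ⟨h1, h2⟩ := coord_steps H P k (x := x) (by omega)
    simp only [Nat.succ_ne_zero, if_false]
    exact ⟨h1, h2⟩
  refine exists_decoded (fun x s => E x ⟨s, by omega⟩) (fun x s => E x ⟨4 + s, by omega⟩)
    (fun x => E x 8) (fun s => top _) (fun x hx s => ?_) (fun x hx s => ?_) (fun x hx => ?_)
    (fun x hx k s h1 h2 => (st x hx).2 k s h1 h2)
  · have h := (st x hx).1 ⟨s, by omega⟩
    simp only [coordStep, dif_pos (show (s : ℕ) < 4 by omega), Fin.eta] at h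
    exact h
  · have h := (st x hx).1 ⟨4 + s, by omega⟩
    simp only [coordStep, dif_neg (show ¬ 4 + (s : ℕ) < 4 by omega),
      dif_pos (show 4 + (s : ℕ) < 8 by omega), Nat.add_sub_cancel_left, Fin.eta] at h
    exact h
  · have h := (st x hx).1 8
    simpa [coordStep] using h

/-- The scan of a tag coordinate on its column. -/
theorem vcol_U (H : Hubs M C VS TS sg) (P : VPath M C b) {k : Fin 2} {v : Fin 4 → Option ℕ}
    (dv : Decoded (TS k) (2 * K - 1) v) (i : Fin 9) :
    (∀ x, 1 ≤ x → x ≤ 2 * K → ev M b (M - K + k) (M - K + x) (.U k i) = coordBit v x i) ∧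
      ∀ p y, M < y + K → y < M + K →
        ev M b (M - K + k) y (.Uk k p i) = coordBit v (snap p) i := by
  have := P.large
  have := K_large
  have hk := k.isLt
  obtain ⟨E, hE⟩ : ∃ E : ℕ → Fin 9 → Bool, E = fun x i => if x = 0
      then ev M b (M - K + k) (M - K + 1) (.Uk k 0 i)
      else ev M b (M - K + k) (M - K + x) (.U k i) := ⟨_, rfl⟩
  have val := dv.coord E
    (fun i => by
      rw [hE]
      simp only
      rw [if_neg (by omega)]
      exact P.col_inner_out (by omega) (by omega) (by omega) trivial (by omega))
    (fun x hx i => by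
      subst hE
      simp only [Nat.succ_ne_zero, if_false]
      exact (coord_steps H P k (x := x) (by omega)).1 i)
  subst hE
  refine ⟨fun x h1 h2 => ?_, fun p y h1 h2 => ?_⟩
  · have := val x (by omega) i
    simpa [show x ≠ 0 by omega] using this
  · have hs := snap_lt p
    have ha : M - K + (k : ℕ) + K = M + k := by omega
    have g := (P.blockV (i := M - K + k) (j := M - K + snap p) (c := snap p) ha (by omega)
      (by omega) hs).coord_snap k p rfl rfl i
    have thru : ∀ z, M < z + K → z < M + K →
        ev M b (M - K + k) z (.Uk k p i) = ev M b (M - K + k) (M + K - 1) (.Uk k p i) :=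
      fun z z1 z2 => P.col_through (by omega) (by omega) z1 z2 (fun n c hc c0 c1 =>
        (P.blockV ha (by omega) hc (by omega)).coord_through c0 (by omega) k p i)
    rw [P.vin_eq ha (by omega) (by omega) hs] at g
    rw [thru y h1 h2, ← thru (M - K + max (snap p) 1) (by omega) (by omega), g]
    have hm : (b (M - K + k) (M - K + snap p)).tagMark k k = fun s => decide (v s = some (snap p)) :=
      funext fun s => by
        rw [H.coord k (snap p) hs _ (P.chosen _ _ (by omega) (by omega)) s,
          dv.mark s _ (by omega)]
    rw [hm, coordBit_step]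
    refine congrArg (fun f => coordStep _ f i) (funext fun t => ?_)
    have := val (snap p + 1) (by omega) t
    simp only [Nat.succ_ne_zero, if_false] at this
    rw [← this, P.eu (by omega) (by omega), show M - K + snap p + 1 = M - K + (snap p + 1) by omega]

/-- The scan columns of the tag coordinates are the only ones with these layers. -/
theorem vcol_U_off (P : VPath M C b) {k : Fin 2} {a i y : ℕ} (ha : i + K = M + a) (ha' : a < 2 * K)
    (hy : M < y + K) (hy' : y < M + K) (hne : a ≠ (k : ℕ)) (t : Fin 9) :
    ev M b i y (.U k t) = false ∧ ∀ p, ev M b i y (.Uk k p t) = false := by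
  have := P.large
  obtain ⟨h1, h2, h3⟩ := (P.blockV (j := y) (c := y + K - M) ha ha' (by omega)
    (by omega)).coord_off k hne t
  exact ⟨by rwa [P.ed (by omega)] at h1, fun p => by have := (h3 p).1; rwa [P.ed (by omega)] at this⟩

open Classical in
/-- A column testing a pattern. -/
theorem vcol_qm (c : Cand M C) (H : Hubs M C VS TS sg) (P : VPath M C b) {a i : ℕ}
    (ha : i + K = M + a) (ha' : a < 2 * K) {e : ℕ} (he : 1 ≤ e) (he' : e < 2 * K) :
    ev M b i (M - K + e) .Qm =
      (usable a && decide (∀ q, sRow q < e → sg q = patOf a q)) := by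
  have := P.large
  induction e, he using Nat.le_induction with
  | base =>
    have g := P.blockV (i := i) (j := M - K) (c := 0) ha ha' (by omega) (by omega)
    rw [← P.eu (by omega) (by omega)]
    cases hu : usable a with
    | false => rw [Bool.false_and]; exact (g.qm_zero hu).2
    | true =>
      rw [Bool.true_and, g.qm_start rfl hu, decide_eq_true (fun q hq => ?_)]
      have := sRow_bounds q
      omega
  | succ e he ih =>
    have g := P.blockV (i := i) (j := M - K + e) (c := e) ha ha' (by omega) (by omega)
    rw [← Nat.add_assoc, ← P.eu (by omega) (by omega)]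
    cases hu : usable a with
    | false => rw [Bool.false_and]; exact (g.qm_zero hu).2
    | true =>
      rw [Bool.true_and]
      have ih' := ih (by omega)
      rw [hu, Bool.true_and] at ih'
      by_cases hq : ∃ q, e = sRow q
      · obtain ⟨q, hq⟩ := hq
        rw [g.qm_test q hq hu, P.ed (by omega), ih',
          hin_signal c H q ha ha' (by omega) (P.chosen i _ (by omega) (by omega)), Bool.eq_iff_iff]
        simp only [Bool.and_eq_true, decide_eq_true_eq]
        constructor
        · rintro ⟨h1, h2⟩ q' hq'
          rcases Nat.eq_or_lt_of_le (Nat.le_of_lt_succ hq') with h | h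
          · obtain rfl : q' = q := sRow_inj (h.trans hq)
            exact h2
          · exact h1 q' h
        · exact fun h => ⟨fun q' hq' => h q' (by omega), h q (by omega)⟩
      · push Not at hq
        rw [g.qm_pass (by omega) (by omega) hq, P.ed (by omega), ih', decide_eq_decide]
        refine forall_congr' fun q => ?_
        have := hq q
        constructor <;> intro h hh <;> exact h (by omega)

/-- Every pattern is tested by some column. -/
theorem exists_pattern (p : Sg → Bool) : ∃ a, usable a = true ∧ patOf a = p := by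
  have inj : Function.Injective
      (fun n : Fin (2 ^ nS) => fun q : Sg => (n : ℕ).testBit (sIdx q)) := by
    intro n m h
    refine Fin.ext (Nat.eq_of_testBit_eq fun i => ?_)
    by_cases hi : i < nS
    · simpa using congrFun h (sIdx.symm ⟨i, hi⟩)
    · have hp : 2 ^ nS ≤ 2 ^ i := Nat.pow_le_pow_right (by norm_num) (by omega)
      rw [Nat.testBit_lt_two_pow (lt_of_lt_of_le n.isLt hp),
        Nat.testBit_lt_two_pow (lt_of_lt_of_le m.isLt hp)]
  have bij := (Fintype.bijective_iff_injective_and_card _).2
    ⟨inj, by rw [Fintype.card_fin, Fintype.card_fun, Fintype.card_bool, nS]⟩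
  obtain ⟨n, hn⟩ := bij.2 p
  refine ⟨mBase + n, ?_, ?_⟩
  · rw [usable_iff]
    omega
  · rw [← hn]
    funext q
    simp [patOf]

/-- The signals read at the hubs form an allowed signature. -/
theorem signal_allowed (c : Cand M C) (H : Hubs M C VS TS sg) : sg ∈ Allowed := by
  classical
  have := c.large
  have hK := K_large
  obtain ⟨a, hu, hp⟩ := exists_pattern sg
  have ha := (usable_iff a).1 hu
  have ha' : a < 2 * K := by
    have := ha.2
    unfold mBase at this
    omega
  obtain ⟨i, hi⟩ : ∃ i, i = M - K + a := ⟨_, rfl⟩
  obtain ⟨b, P⟩ := c.exists_vpath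
  have g := P.blockV (i := i) (j := M + K - 1) (c := 2 * K - 1) (a := a) (by omega) ha' (by omega)
    (by omega)
  have e := vcol_qm c H P (i := i) (a := a) (by omega) ha' (e := 2 * K - 1) (by omega) (by omega)
  rw [hu, Bool.true_and, decide_eq_true (fun q _ => by rw [hp]),
    show M - K + (2 * K - 1) = M + K - 1 by omega] at e
  by_contra hs
  have := g.qm_final (by omega) hu (by simp [forb, hp, hs])
  rw [P.ed (by omega), e] at this
  exact Bool.noConfusion this

end Vale.Agent.P196.Full.Tiles.Parse
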