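import Vale.Agent.P196.Full.Tiles.Geom

/-!
# P196: the statements of which the parse consists
-/

namespace Vale.Agent.P196.Full.Tiles

/-- A colour within the range of the colours of level `s + 1`, as seen by blocks of level `s`. -/
def GCol.InRange (s : ℕ) : GCol → Prop
  | .outer _ => True
  | .tag a b => a ≤ 2 * K ∧ b ≤ 2 * K
  | .side _ _ v => v ≤ lvl s - K

/-- An allowed signature with colours in range, whose values and tag coordinates differ by at
most one, comes from a cell of the level above. -/
def ReconstructGoal : Prop :=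
  ∀ (s : ℕ) (T : Tile), (∀ k, (T.gs k).InRange s) →
    (∀ k k' w w', (T.gs k).val = some w → (T.gs k').val = some w' → w ≤ w' + 1) →
    (∀ (c : Fin 2) k k' x x', (T.gs k).coord c = some x → (T.gs k').coord c = some x' →
      x ≤ x' + 1) →
    sig forb (lvl s) T ∈ Allowed → HasGeom (s + 1) T

/-- One block of matching tiles with the geometry of a block comes from exactly one parent. -/
def BlockParseGoal : Prop :=
  ∀ (s : ℕ) (b : ℕ → ℕ → Tile),
    (∀ i j, i < 2 * lvl s → j < 2 * lvl s → OK s (b i j) ∧ SameGeom (lvl s) i j (b i j)) →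
    (∀ i j, i + 1 < 2 * lvl s → j < 2 * lvl s → (b i j).r = (b (i + 1) j).l) →
    (∀ i j, i < 2 * lvl s → j + 1 < 2 * lvl s → (b i j).u = (b i (j + 1)).d) →
    ∃ T, OK (s + 1) T ∧ (∀ i j, i < 2 * lvl s → j < 2 * lvl s → b i j = child forb (lvl s) T i j) ∧
      ∀ T', OK (s + 1) T' →
        (∀ i j, i < 2 * lvl s → j < 2 * lvl s → b i j = child forb (lvl s) T' i j) → T' = T

/-- The outer sides of a block determine the sides of the parent. -/
def SideGoal : Prop :=
  ∀ (s : ℕ) (T T' : Tile), HasGeom (s + 1) T → HasGeom (s + 1) T' →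
    ((∀ j < 2 * lvl s,
      (child forb (lvl s) T (2 * lvl s - 1) j).r = (child forb (lvl s) T' 0 j).l) → T.r = T'.l) ∧
    ((∀ i < 2 * lvl s,
      (child forb (lvl s) T i (2 * lvl s - 1)).u = (child forb (lvl s) T' i 0).d) → T.u = T'.d)

end Vale.Agent.P196.Full.Tiles
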